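import Mathlib

/-!
# Direct finiteness passes up central `p`-extensions in characteristic `p`

`R` a ring of prime characteristic `p`, `G` a group, `Z` a subgroup of `G` all of whose elements
are central in `G` and of `p`-power order.  Every element of the kernel of `R[G] → R[G ⧸ Z]` is
nilpotent; hence if `R[G ⧸ Z]` is directly finite, so is `R[G]`.
-/

namespace Vale.Agent.Lib.P194.H86

section Nil

variable {A : Type*} [Ring A]

/-- `(c * y + x) ^ k = c * r + x ^ k` for some `r`, when `c` is central. -/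
theorem exists_pow_add_central (c y x : A) (hc : ∀ t : A, c * t = t * c) (k : ℕ) :
    ∃ r : A, (c * y + x) ^ k = c * r + x ^ k := by
  induction k with
  | zero => exact ⟨0, by simp⟩
  | succ k ih =>
    obtain ⟨r, hr⟩ := ih
    refine ⟨r * (c * y + x) + x ^ k * y, ?_⟩
    have h1 : x ^ k * (c * y) = c * (x ^ k * y) := by
      rw [← mul_assoc, ← hc (x ^ k), mul_assoc]
    rw [pow_succ, hr, pow_succ]
    calc (c * r + x ^ k) * (c * y + x)
        = c * r * (c * y + x) + x ^ k * (c * y) + x ^ k * x := by noncomm_ring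
      _ = c * (r * (c * y + x) + x ^ k * y) + x ^ k * x := by rw [h1]; noncomm_ring

/-- If `c` is central and nilpotent and `x` is nilpotent, then `c * y + x` is nilpotent. -/
theorem isNilpotent_central_mul_add (c y x : A) (hc : ∀ t : A, c * t = t * c)
    (hcn : IsNilpotent c) (hx : IsNilpotent x) : IsNilpotent (c * y + x) := by
  obtain ⟨n, hn⟩ := hcn
  obtain ⟨k, hk⟩ := hx
  obtain ⟨r, hr⟩ := exists_pow_add_central c y x hc k
  refine ⟨k * n, ?_⟩
  have hcr : (c * r) ^ n = c ^ n * r ^ n := Commute.mul_pow (hc r) n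
  rw [pow_mul, hr, hk, add_zero, hcr, hn, zero_mul]

/-- An idempotent nilpotent element is zero. -/
theorem eq_zero_of_idem_nilpotent (x : A) (hx : x * x = x) (hn : IsNilpotent x) : x = 0 := by
  obtain ⟨n, hn⟩ := hn
  have hpow : ∀ m : ℕ, x ^ (m + 1) = x := by
    intro m
    induction m with
    | zero => simp
    | succ m ih => rw [pow_succ, ih, hx]
  cases n with
  | zero =>
    rw [pow_zero] at hn
    calc x = x * 1 := (mul_one x).symm
      _ = 0 := by rw [hn, mul_zero]
  | succ n => rw [← hpow n, hn]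

end Nil

section GroupAlg

variable {R : Type*} [Ring R] {G : Type*} [Group G]

/-- `single z 1 - 1` is central in `R[G]` when `z` is central in `G`. -/
theorem single_sub_one_central (z : G) (hz : ∀ g : G, z * g = g * z) (t : MonoidAlgebra R G) :
    (MonoidAlgebra.single z (1 : R) - 1) * t = t * (MonoidAlgebra.single z (1 : R) - 1) := by
  have h : MonoidAlgebra.single z (1 : R) * t = t * MonoidAlgebra.single z (1 : R) :=
    MonoidAlgebra.single_commute (fun g => hz g) (fun r => Commute.one_left r) t
  rw [sub_mul, mul_sub, h, one_mul, mul_one]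

/-- `single z 1 - 1` is nilpotent in characteristic `p` when `z` has `p`-power order. -/
theorem single_sub_one_nilpotent (p : ℕ) [Fact p.Prime] [CharP R p] (z : G) (k : ℕ)
    (hz : z ^ (p ^ k) = 1) : IsNilpotent (MonoidAlgebra.single z (1 : R) - 1) := by
  have : CharP (MonoidAlgebra R G) p :=
    charP_of_injective_ringHom (f := (MonoidAlgebra.singleOneRingHom : R →+* MonoidAlgebra R G))
      (fun r₁ r₂ h => by
        have h' : MonoidAlgebra.single (1 : G) r₁ = MonoidAlgebra.single (1 : G) r₂ := h
        have h'' := congrArg (fun x : MonoidAlgebra R G => x.coeff 1) h'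
        simpa using h'') p
  refine ⟨p ^ k, ?_⟩
  rw [sub_pow_char_pow_of_commute p k (Commute.one_right _), MonoidAlgebra.single_pow, hz, one_pow,
    one_pow, MonoidAlgebra.one_def, sub_self]

/-- Every element of the kernel of `R[G] → R[G ⧸ Z]` is nilpotent, for `Z` a central subgroup
whose elements have `p`-power order and `R` of characteristic `p`. -/
theorem isNilpotent_of_mapDomain_eq_zero (p : ℕ) [Fact p.Prime] [CharP R p]
    (Z : Subgroup G) [Z.Normal]
    (hcent : ∀ z ∈ Z, ∀ g : G, z * g = g * z) (hpow : ∀ z ∈ Z, ∃ k : ℕ, z ^ (p ^ k) = 1)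
    (x : MonoidAlgebra R G)
    (hx : MonoidAlgebra.mapDomain (fun g : G => (QuotientGroup.mk g : G ⧸ Z)) x = 0) :
    IsNilpotent x := by
  have key : ∀ y : MonoidAlgebra R G, ∀ w : MonoidAlgebra R G, IsNilpotent w →
      IsNilpotent (y - MonoidAlgebra.mapDomain
        (fun g : G => Quotient.out (QuotientGroup.mk g : G ⧸ Z)) y + w) := by
    intro y
    induction y using MonoidAlgebra.induction_linear with
    | zero =>
      intro w hw
      rw [MonoidAlgebra.mapDomain_zero, sub_zero, zero_add]; exact hw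
    | add y₁ y₂ h₁ h₂ =>
      intro w hw
      have h := h₁ _ (h₂ w hw)
      rw [MonoidAlgebra.mapDomain_add]
      have e : y₁ + y₂ - (MonoidAlgebra.mapDomain
            (fun g : G => Quotient.out (QuotientGroup.mk g : G ⧸ Z)) y₁ +
          MonoidAlgebra.mapDomain
            (fun g : G => Quotient.out (QuotientGroup.mk g : G ⧸ Z)) y₂) + w
          = y₁ - MonoidAlgebra.mapDomain
            (fun g : G => Quotient.out (QuotientGroup.mk g : G ⧸ Z)) y₁ +
            (y₂ - MonoidAlgebra.mapDomain
            (fun g : G => Quotient.out (QuotientGroup.mk g : G ⧸ Z)) y₂ + w) := by abel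
      rw [e]; exact h
    | single g r =>
      intro w hw
      rw [MonoidAlgebra.mapDomain_single]
      set s : G := Quotient.out (QuotientGroup.mk g : G ⧸ Z) with hs
      have hmk : (QuotientGroup.mk s : G ⧸ Z) = QuotientGroup.mk g := Quotient.out_eq _
      have hz1 : s⁻¹ * g ∈ Z := QuotientGroup.eq.mp hmk
      have hz : g * s⁻¹ ∈ Z := (Subgroup.Normal.mem_comm_iff inferInstance).mp hz1
      have e : MonoidAlgebra.single g r - MonoidAlgebra.single s r
          = (MonoidAlgebra.single (g * s⁻¹) (1 : R) - 1) * MonoidAlgebra.single s r := by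
        rw [sub_mul, one_mul, MonoidAlgebra.single_mul_single, one_mul, inv_mul_cancel_right]
      rw [e]
      obtain ⟨k, hk⟩ := hpow _ hz
      exact isNilpotent_central_mul_add _ _ w
        (single_sub_one_central _ (hcent _ hz))
        (single_sub_one_nilpotent p _ k hk) hw
  have hT : MonoidAlgebra.mapDomain
      (fun g : G => Quotient.out (QuotientGroup.mk g : G ⧸ Z)) x = 0 := by
    have h2 : MonoidAlgebra.mapDomain
        (fun g : G => Quotient.out (QuotientGroup.mk g : G ⧸ Z)) x
        = MonoidAlgebra.mapDomain (fun c : G ⧸ Z => Quotient.out c)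
          (MonoidAlgebra.mapDomain (fun g : G => (QuotientGroup.mk g : G ⧸ Z)) x) := by
      apply MonoidAlgebra.coeff_injective
      simp only [MonoidAlgebra.mapDomain, MonoidAlgebra.coeff_ofCoeff]
      rw [← Finsupp.mapDomain_comp]
      rfl
    rw [h2, hx, MonoidAlgebra.mapDomain_zero]
  have h := key x 0 IsNilpotent.zero
  rwa [hT, sub_zero, add_zero] at h

/-- **Central `p`-extensions.** If `R[G ⧸ Z]` is directly finite, then so is `R[G]`. -/
theorem central_p_extension (p : ℕ) [Fact p.Prime] [CharP R p] (Z : Subgroup G) [Z.Normal]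
    (hcent : ∀ z ∈ Z, ∀ g : G, z * g = g * z) (hpow : ∀ z ∈ Z, ∃ k : ℕ, z ^ (p ^ k) = 1)
    (hQ : ∀ a b : MonoidAlgebra R (G ⧸ Z), a * b = 1 → b * a = 1) :
    ∀ a b : MonoidAlgebra R G, a * b = 1 → b * a = 1 := by
  intro a b hab
  have hmap : ∀ x y : MonoidAlgebra R G,
      MonoidAlgebra.mapDomain (fun g : G => (QuotientGroup.mk g : G ⧸ Z)) (x * y)
      = MonoidAlgebra.mapDomain (fun g : G => (QuotientGroup.mk g : G ⧸ Z)) x
        * MonoidAlgebra.mapDomain (fun g : G => (QuotientGroup.mk g : G ⧸ Z)) y := by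
    intro x y
    exact MonoidAlgebra.mapDomain_mul (QuotientGroup.mk' Z) x y
  have hone : MonoidAlgebra.mapDomain (fun g : G => (QuotientGroup.mk g : G ⧸ Z))
      (1 : MonoidAlgebra R G) = 1 := MonoidAlgebra.mapDomain_one (QuotientGroup.mk' Z)
  have h1 : MonoidAlgebra.mapDomain (fun g : G => (QuotientGroup.mk g : G ⧸ Z)) a
      * MonoidAlgebra.mapDomain (fun g : G => (QuotientGroup.mk g : G ⧸ Z)) b = 1 := by
    rw [← hmap, hab, hone]
  have h2 := hQ _ _ h1
  have hker : MonoidAlgebra.mapDomain (fun g : G => (QuotientGroup.mk g : G ⧸ Z))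
      (1 - b * a) = 0 := by
    have hsub : (1 : MonoidAlgebra R G) - b * a = 1 + (-1 : MonoidAlgebra R G) * (b * a) := by
      noncomm_ring
    have hneg : MonoidAlgebra.mapDomain (fun g : G => (QuotientGroup.mk g : G ⧸ Z))
        (-1 : MonoidAlgebra R G) = -1 := by
      have h0 : MonoidAlgebra.mapDomain (fun g : G => (QuotientGroup.mk g : G ⧸ Z))
          ((-1 : MonoidAlgebra R G) + 1) = 0 := by
        rw [neg_add_cancel, MonoidAlgebra.mapDomain_zero]
      rw [MonoidAlgebra.mapDomain_add, hone] at h0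
      exact eq_neg_of_add_eq_zero_left h0
    rw [hsub, MonoidAlgebra.mapDomain_add, hone, hmap, hmap, hneg, h2]
    noncomm_ring
  have hnil := isNilpotent_of_mapDomain_eq_zero p Z hcent hpow _ hker
  have hidem : (1 - b * a) * (1 - b * a) = 1 - b * a := by
    have hb : b * a * (b * a) = b * a := by
      calc b * a * (b * a) = b * (a * b) * a := by noncomm_ring
        _ = b * a := by rw [hab, mul_one]
    calc (1 - b * a) * (1 - b * a) = 1 - b * a - b * a + b * a * (b * a) := by noncomm_ring
      _ = 1 - b * a := by rw [hb]; abel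
  have h0 := eq_zero_of_idem_nilpotent _ hidem hnil
  exact (sub_eq_zero.mp h0).symm

end GroupAlg

section MatrixVersion

variable {S : Type*} [Ring S] {n : ℕ}

/-- The scalar matrix of a central element is central. -/
theorem diagonal_central (c : S) (hc : ∀ t : S, c * t = t * c)
    (T : Matrix (Fin n) (Fin n) S) :
    Matrix.diagonal (fun _ : Fin n => c) * T = T * Matrix.diagonal (fun _ : Fin n => c) := by
  ext i j
  rw [Matrix.diagonal_mul, Matrix.mul_diagonal, hc]

/-- The scalar matrix of a nilpotent element is nilpotent. -/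
theorem diagonal_nilpotent (c : S) (hc : IsNilpotent c) :
    IsNilpotent (Matrix.diagonal (fun _ : Fin n => c)) := by
  obtain ⟨k, hk⟩ := hc
  refine ⟨k, ?_⟩
  have h0 : (fun _ : Fin n => c) ^ k = 0 := by
    funext i
    simp [hk]
  rw [Matrix.diagonal_pow, h0]
  exact Matrix.diagonal_zero

theorem single_mul_eq_diagonal_mul (c y : S) (i j : Fin n) :
    Matrix.single i j (c * y) = Matrix.diagonal (fun _ : Fin n => c) * Matrix.single i j y := by
  ext a b
  rw [Matrix.diagonal_mul]
  simp only [Matrix.single_apply]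
  split_ifs <;> simp

/-- In any ring: if `a * b = 1` and `1 - b * a` is nilpotent then `b * a = 1`. -/
theorem mul_eq_one_of_nilpotent (a b : S) (hab : a * b = 1) (hn : IsNilpotent (1 - b * a)) :
    b * a = 1 := by
  have hidem : (1 - b * a) * (1 - b * a) = 1 - b * a := by
    have hb : b * a * (b * a) = b * a := by
      calc b * a * (b * a) = b * (a * b) * a := by noncomm_ring
        _ = b * a := by rw [hab, mul_one]
    calc (1 - b * a) * (1 - b * a) = 1 - b * a - b * a + b * a * (b * a) := by noncomm_ring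
      _ = 1 - b * a := by rw [hb]; abel
  have h0 := eq_zero_of_idem_nilpotent _ hidem hn
  exact (sub_eq_zero.mp h0).symm

end MatrixVersion

section MatrixGroupAlg

variable {R : Type*} [Ring R] {G : Type*} [Group G]

theorem mapDomain_out_eq_zero (Z : Subgroup G) (x : MonoidAlgebra R G)
    (hx : MonoidAlgebra.mapDomain (fun g : G => (QuotientGroup.mk g : G ⧸ Z)) x = 0) :
    MonoidAlgebra.mapDomain (fun g : G => Quotient.out (QuotientGroup.mk g : G ⧸ Z)) x = 0 := by
  have h2 : MonoidAlgebra.mapDomain
      (fun g : G => Quotient.out (QuotientGroup.mk g : G ⧸ Z)) x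
      = MonoidAlgebra.mapDomain (fun c : G ⧸ Z => Quotient.out c)
        (MonoidAlgebra.mapDomain (fun g : G => (QuotientGroup.mk g : G ⧸ Z)) x) := by
    apply MonoidAlgebra.coeff_injective
    simp only [MonoidAlgebra.mapDomain, MonoidAlgebra.coeff_ofCoeff]
    rw [← Finsupp.mapDomain_comp]
    rfl
  rw [h2, hx, MonoidAlgebra.mapDomain_zero]

/-- A square matrix over `R[G]` all of whose entries lie in the kernel of `R[G] → R[G ⧸ Z]` is
nilpotent. -/
theorem isNilpotent_matrix_of_entries (p : ℕ) [Fact p.Prime] [CharP R p]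
    (Z : Subgroup G) [Z.Normal]
    (hcent : ∀ z ∈ Z, ∀ g : G, z * g = g * z) (hpow : ∀ z ∈ Z, ∃ k : ℕ, z ^ (p ^ k) = 1)
    (n : ℕ) (X : Matrix (Fin n) (Fin n) (MonoidAlgebra R G))
    (hX : ∀ i j, MonoidAlgebra.mapDomain (fun g : G => (QuotientGroup.mk g : G ⧸ Z)) (X i j) = 0) :
    IsNilpotent X := by
  have key : ∀ (i j : Fin n) (y : MonoidAlgebra R G)
      (W : Matrix (Fin n) (Fin n) (MonoidAlgebra R G)), IsNilpotent W →
      IsNilpotent (Matrix.single i j (y - MonoidAlgebra.mapDomain
        (fun g : G => Quotient.out (QuotientGroup.mk g : G ⧸ Z)) y) + W) := by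
    intro i j y
    induction y using MonoidAlgebra.induction_linear with
    | zero =>
      intro W hW
      rw [MonoidAlgebra.mapDomain_zero, sub_zero, Matrix.single_zero, zero_add]; exact hW
    | add y₁ y₂ h₁ h₂ =>
      intro W hW
      have h := h₁ _ (h₂ W hW)
      rw [MonoidAlgebra.mapDomain_add]
      have e : y₁ + y₂ - (MonoidAlgebra.mapDomain
            (fun g : G => Quotient.out (QuotientGroup.mk g : G ⧸ Z)) y₁ +
          MonoidAlgebra.mapDomain
            (fun g : G => Quotient.out (QuotientGroup.mk g : G ⧸ Z)) y₂)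
          = (y₁ - MonoidAlgebra.mapDomain
            (fun g : G => Quotient.out (QuotientGroup.mk g : G ⧸ Z)) y₁) +
            (y₂ - MonoidAlgebra.mapDomain
            (fun g : G => Quotient.out (QuotientGroup.mk g : G ⧸ Z)) y₂) := by abel
      rw [e, Matrix.single_add, add_assoc]; exact h
    | single g r =>
      intro W hW
      rw [MonoidAlgebra.mapDomain_single]
      set s : G := Quotient.out (QuotientGroup.mk g : G ⧸ Z) with hs
      have hmk : (QuotientGroup.mk s : G ⧸ Z) = QuotientGroup.mk g := Quotient.out_eq _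
      have hz1 : s⁻¹ * g ∈ Z := QuotientGroup.eq.mp hmk
      have hz : g * s⁻¹ ∈ Z := (Subgroup.Normal.mem_comm_iff inferInstance).mp hz1
      have e : MonoidAlgebra.single g r - MonoidAlgebra.single s r
          = (MonoidAlgebra.single (g * s⁻¹) (1 : R) - 1) * MonoidAlgebra.single s r := by
        rw [sub_mul, one_mul, MonoidAlgebra.single_mul_single, one_mul, inv_mul_cancel_right]
      rw [e, single_mul_eq_diagonal_mul]
      obtain ⟨k, hk⟩ := hpow _ hz
      exact isNilpotent_central_mul_add _ _ W
        (diagonal_central _ (single_sub_one_central _ (hcent _ hz)))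
        (diagonal_nilpotent _ (single_sub_one_nilpotent p _ k hk)) hW
  have hsum : ∀ (s : Finset (Fin n × Fin n))
      (W : Matrix (Fin n) (Fin n) (MonoidAlgebra R G)), IsNilpotent W →
      IsNilpotent (∑ q ∈ s, Matrix.single q.1 q.2 (X q.1 q.2) + W) := by
    classical
    intro s
    induction s using Finset.induction_on with
    | empty =>
      intro W hW
      rw [Finset.sum_empty, zero_add]; exact hW
    | insert q s hq ih =>
      intro W hW
      rw [Finset.sum_insert hq, add_assoc]
      have h := key q.1 q.2 (X q.1 q.2) _ (ih W hW)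
      rwa [mapDomain_out_eq_zero Z _ (hX q.1 q.2), sub_zero] at h
  have hX' : X = ∑ q : Fin n × Fin n, Matrix.single q.1 q.2 (X q.1 q.2) := by
    rw [Fintype.sum_prod_type]
    exact Matrix.matrix_eq_sum_single X
  have h := hsum Finset.univ 0 IsNilpotent.zero
  rw [add_zero, ← hX'] at h
  exact h

/-- **Central `p`-extensions, matrix form.** If `M_n(R[G ⧸ Z])` is directly finite, then so is
`M_n(R[G])`. -/
theorem central_p_extension_matrix (p : ℕ) [Fact p.Prime] [CharP R p] (Z : Subgroup G) [Z.Normal]
    (hcent : ∀ z ∈ Z, ∀ g : G, z * g = g * z) (hpow : ∀ z ∈ Z, ∃ k : ℕ, z ^ (p ^ k) = 1)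
    (n : ℕ)
    (hQ : ∀ A B : Matrix (Fin n) (Fin n) (MonoidAlgebra R (G ⧸ Z)), A * B = 1 → B * A = 1) :
    ∀ A B : Matrix (Fin n) (Fin n) (MonoidAlgebra R G), A * B = 1 → B * A = 1 := by
  intro A B hAB
  have h1 : (MonoidAlgebra.mapDomainRingHom R (QuotientGroup.mk' Z)).mapMatrix A
      * (MonoidAlgebra.mapDomainRingHom R (QuotientGroup.mk' Z)).mapMatrix B = 1 := by
    rw [← map_mul, hAB, map_one]
  have h2 := hQ _ _ h1
  have hker : (MonoidAlgebra.mapDomainRingHom R (QuotientGroup.mk' Z)).mapMatrix (1 - B * A)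
      = 0 := by
    rw [map_sub, map_one, map_mul, h2, sub_self]
  have hentries : ∀ i j, MonoidAlgebra.mapDomain (fun g : G => (QuotientGroup.mk g : G ⧸ Z))
      ((1 - B * A) i j) = 0 := by
    intro i j
    have h := congrFun (congrFun hker i) j
    exact h
  exact mul_eq_one_of_nilpotent A B hAB
    (isNilpotent_matrix_of_entries p Z hcent hpow n _ hentries)

end MatrixGroupAlg

section Generic

variable {A B : Type*} [Ring A] [Ring B]

/-- Direct finiteness passes to the quotient by a nil ideal: if `f : A →+* B` is surjective with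
nil kernel and `A` is directly finite, then `B` is directly finite. -/
theorem directlyFinite_of_surjective_nil_ker (f : A →+* B) (hsurj : Function.Surjective f)
    (hker : ∀ x : A, f x = 0 → IsNilpotent x)
    (hA : ∀ a b : A, a * b = 1 → b * a = 1) : ∀ a b : B, a * b = 1 → b * a = 1 := by
  intro a' b' hab'
  obtain ⟨a, rfl⟩ := hsurj a'
  obtain ⟨b, rfl⟩ := hsurj b'
  have hnil : IsNilpotent (1 - a * b) := by
    apply hker
    rw [map_sub, map_one, map_mul, hab', sub_self]
  have hu : IsUnit (a * b) := by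
    have h := hnil.isUnit_one_sub
    rwa [sub_sub_cancel] at h
  obtain ⟨u, hu⟩ := hu
  have h1 : a * (b * (↑u⁻¹ : A)) = 1 := by
    rw [← mul_assoc, ← hu, Units.mul_inv]
  have h2 : b * (↑u⁻¹ : A) * a = 1 := hA _ _ h1
  have hfu : f (↑u : A) = 1 := by rw [hu, map_mul, hab']
  have hfu' : f (↑u⁻¹ : A) = 1 := by
    have h3 : f (↑u : A) * f (↑u⁻¹ : A) = 1 := by rw [← map_mul, Units.mul_inv, map_one]
    rwa [hfu, one_mul] at h3
  have h4 : f b * f (↑u⁻¹ : A) * f a = 1 := by rw [← map_mul, ← map_mul, h2, map_one]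
  rwa [hfu', mul_one] at h4

/-- Direct finiteness lifts along a ring homomorphism with nil kernel. -/
theorem directlyFinite_of_nil_ker (f : A →+* B)
    (hker : ∀ x : A, f x = 0 → IsNilpotent x)
    (hB : ∀ a b : B, a * b = 1 → b * a = 1) : ∀ a b : A, a * b = 1 → b * a = 1 := by
  intro a b hab
  apply mul_eq_one_of_nilpotent a b hab
  apply hker
  have h1 : f a * f b = 1 := by rw [← map_mul, hab, map_one]
  rw [map_sub, map_one, map_mul, hB _ _ h1, sub_self]

end Generic

section Equivalences

variable {R : Type*} [Ring R] {G : Type*} [Group G]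

theorem mapDomain_mk_surjective (Z : Subgroup G) [Z.Normal] :
    Function.Surjective (MonoidAlgebra.mapDomainRingHom R (QuotientGroup.mk' Z)) := by
  intro y
  refine ⟨MonoidAlgebra.mapDomain (fun c : G ⧸ Z => Quotient.out c) y, ?_⟩
  change MonoidAlgebra.mapDomain (fun g : G => (QuotientGroup.mk g : G ⧸ Z))
    (MonoidAlgebra.mapDomain (fun c : G ⧸ Z => Quotient.out c) y) = y
  apply MonoidAlgebra.coeff_injective
  simp only [MonoidAlgebra.mapDomain, MonoidAlgebra.coeff_ofCoeff]
  rw [← Finsupp.mapDomain_comp]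
  have hid : ((fun g : G => (QuotientGroup.mk g : G ⧸ Z)) ∘ fun c : G ⧸ Z => Quotient.out c)
      = id := by
    funext c
    exact Quotient.out_eq c
  rw [hid, Finsupp.mapDomain_id]

/-- **Central `p`-torsion subgroups do not matter for direct finiteness in characteristic `p`.** -/
theorem central_p_iff (p : ℕ) [Fact p.Prime] [CharP R p] (Z : Subgroup G) [Z.Normal]
    (hcent : ∀ z ∈ Z, ∀ g : G, z * g = g * z) (hpow : ∀ z ∈ Z, ∃ k : ℕ, z ^ (p ^ k) = 1) :
    (∀ a b : MonoidAlgebra R G, a * b = 1 → b * a = 1) ↔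
      (∀ a b : MonoidAlgebra R (G ⧸ Z), a * b = 1 → b * a = 1) := by
  have hker : ∀ x : MonoidAlgebra R G,
      MonoidAlgebra.mapDomainRingHom R (QuotientGroup.mk' Z) x = 0 → IsNilpotent x :=
    fun x hx => isNilpotent_of_mapDomain_eq_zero p Z hcent hpow x hx
  exact ⟨directlyFinite_of_surjective_nil_ker _ (mapDomain_mk_surjective Z) hker,
    directlyFinite_of_nil_ker _ hker⟩

/-- Matrix form of `central_p_iff`. -/
theorem central_p_iff_matrix (p : ℕ) [Fact p.Prime] [CharP R p] (Z : Subgroup G) [Z.Normal]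
    (hcent : ∀ z ∈ Z, ∀ g : G, z * g = g * z) (hpow : ∀ z ∈ Z, ∃ k : ℕ, z ^ (p ^ k) = 1)
    (n : ℕ) :
    (∀ A B : Matrix (Fin n) (Fin n) (MonoidAlgebra R G), A * B = 1 → B * A = 1) ↔
      (∀ A B : Matrix (Fin n) (Fin n) (MonoidAlgebra R (G ⧸ Z)), A * B = 1 → B * A = 1) := by
  have hker : ∀ X : Matrix (Fin n) (Fin n) (MonoidAlgebra R G),
      (MonoidAlgebra.mapDomainRingHom R (QuotientGroup.mk' Z)).mapMatrix X = 0 →
      IsNilpotent X := by
    intro X hX
    apply isNilpotent_matrix_of_entries p Z hcent hpow n X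
    intro i j
    have h := congrFun (congrFun hX i) j
    exact h
  have hsurj : Function.Surjective
      ((MonoidAlgebra.mapDomainRingHom R (QuotientGroup.mk' Z)).mapMatrix :
        Matrix (Fin n) (Fin n) (MonoidAlgebra R G) →+*
          Matrix (Fin n) (Fin n) (MonoidAlgebra R (G ⧸ Z))) := by
    intro Y
    choose F hF using fun i j => mapDomain_mk_surjective (R := R) Z (Y i j)
    refine ⟨Matrix.of F, ?_⟩
    apply Matrix.ext
    intro i j
    exact hF i j
  exact ⟨directlyFinite_of_surjective_nil_ker _ hsurj hker, directlyFinite_of_nil_ker _ hker⟩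

end Equivalences

end Vale.Agent.Lib.P194.H86
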