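import Mathlib
import Vale.Agent.Lib.P194.H86.CentralP

/-!
# Direct finiteness passes up central extensions with residually `p`-torsion kernel

`R` a ring of prime characteristic `p`, `G` a group, `Z` a central subgroup of `G` such that every
nontrivial element of `Z` lies outside some subgroup `N ≤ Z` with `Z / N` a `p`-torsion group
(for instance `Z` free abelian, with `N` the subgroup of `p ^ k`-th powers).  If `R[G ⧸ Z]` is
directly finite, then so is `R[G]`; the same for square matrices.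
-/

namespace Vale.Agent.Lib.P194.H86

section Residual

variable {R : Type*} [Ring R] {G : Type*} [Group G]

/-- A subgroup of central elements is normal. -/
theorem normal_of_central (N : Subgroup G) (hc : ∀ z ∈ N, ∀ g : G, z * g = g * z) : N.Normal :=
  ⟨fun n hn g => by
    have h : g * n * g⁻¹ = n := by rw [← hc n hn g, mul_inv_cancel_right]
    rw [h]; exact hn⟩

theorem mapDomainRingHom_single (N : Subgroup G) [N.Normal] (g : G) (r : R) :
    MonoidAlgebra.mapDomainRingHom R (QuotientGroup.mk' N) (MonoidAlgebra.single g r)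
      = MonoidAlgebra.single (QuotientGroup.mk g : G ⧸ N) r :=
  MonoidAlgebra.mapDomain_single

/-- The image of the kernel of `R[G] → R[G ⧸ Z]` in `R[G ⧸ N]` consists of nilpotent elements
when `Z` is central and `Z / N` is `p`-torsion. -/
theorem isNilpotent_mapDomain_of_ker (p : ℕ) [Fact p.Prime] [CharP R p]
    (Z : Subgroup G) [Z.Normal] (N : Subgroup G) [N.Normal]
    (hcent : ∀ z ∈ Z, ∀ g : G, z * g = g * z)
    (hN : ∀ w ∈ Z, ∃ k : ℕ, w ^ (p ^ k) ∈ N)
    (x : MonoidAlgebra R G)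
    (hx : MonoidAlgebra.mapDomain (fun g : G => (QuotientGroup.mk g : G ⧸ Z)) x = 0) :
    IsNilpotent (MonoidAlgebra.mapDomainRingHom R (QuotientGroup.mk' N) x) := by
  have key : ∀ y : MonoidAlgebra R G, ∀ w : MonoidAlgebra R (G ⧸ N), IsNilpotent w →
      IsNilpotent (MonoidAlgebra.mapDomainRingHom R (QuotientGroup.mk' N)
        (y - MonoidAlgebra.mapDomain
          (fun g : G => Quotient.out (QuotientGroup.mk g : G ⧸ Z)) y) + w) := by
    intro y
    induction y using MonoidAlgebra.induction_linear with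
    | zero =>
      intro w hw
      rw [MonoidAlgebra.mapDomain_zero, sub_zero, map_zero, zero_add]; exact hw
    | add y₁ y₂ h₁ h₂ =>
      intro w hw
      have h := h₁ _ (h₂ w hw)
      rw [MonoidAlgebra.mapDomain_add]
      have e : y₁ + y₂ - (MonoidAlgebra.mapDomain
            (fun g : G => Quotient.out (QuotientGroup.mk g : G ⧸ Z)) y₁ +
          MonoidAlgebra.mapDomain
            (fun g : G => Quotient.out (QuotientGroup.mk g : G ⧸ Z)) y₂)
          = (y₁ - MonoidAlgebra.mapDomain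
            (fun g : G => Quotient.out (QuotientGroup.mk g : G ⧸ Z)) y₁) +
            (y₂ - MonoidAlgebra.mapDomain
            (fun g : G => Quotient.out (QuotientGroup.mk g : G ⧸ Z)) y₂) := by abel
      rw [e, map_add, add_assoc]; exact h
    | single g r =>
      intro w hw
      rw [MonoidAlgebra.mapDomain_single]
      set s : G := Quotient.out (QuotientGroup.mk g : G ⧸ Z) with hs
      have hmk : (QuotientGroup.mk s : G ⧸ Z) = QuotientGroup.mk g := Quotient.out_eq _
      have hz1 : s⁻¹ * g ∈ Z := QuotientGroup.eq.mp hmk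
      have hz : g * s⁻¹ ∈ Z := (Subgroup.Normal.mem_comm_iff inferInstance).mp hz1
      have e : MonoidAlgebra.single g r - MonoidAlgebra.single s r
          = (MonoidAlgebra.single (g * s⁻¹) (1 : R) - 1) * MonoidAlgebra.single s r := by
        rw [sub_mul, one_mul, MonoidAlgebra.single_mul_single, one_mul, inv_mul_cancel_right]
      rw [e, map_mul, map_sub, map_one, mapDomainRingHom_single, mapDomainRingHom_single]
      obtain ⟨k, hk⟩ := hN _ hz
      have hcentN : ∀ t : G ⧸ N, (QuotientGroup.mk (g * s⁻¹) : G ⧸ N) * t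
          = t * (QuotientGroup.mk (g * s⁻¹) : G ⧸ N) := by
        intro t
        induction t using QuotientGroup.induction_on with
        | H t =>
          rw [← QuotientGroup.mk_mul, ← QuotientGroup.mk_mul, hcent _ hz t]
      have hpowN : (QuotientGroup.mk (g * s⁻¹) : G ⧸ N) ^ (p ^ k) = 1 := by
        rw [← QuotientGroup.mk_pow]
        exact (QuotientGroup.eq_one_iff _).mpr hk
      exact isNilpotent_central_mul_add _ _ w
        (single_sub_one_central _ hcentN)
        (single_sub_one_nilpotent p _ k hpowN) hw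
  have hT := mapDomain_out_eq_zero Z x hx
  have h := key x 0 IsNilpotent.zero
  rwa [hT, sub_zero, add_zero] at h

/-- Finitely many nontrivial elements of `Z` can be avoided simultaneously. -/
theorem exists_subgroup_avoiding (p : ℕ) (Z : Subgroup G)
    (hres : ∀ z ∈ Z, z ≠ 1 → ∃ N : Subgroup G, N ≤ Z ∧ z ∉ N ∧
      ∀ w ∈ Z, ∃ k : ℕ, w ^ (p ^ k) ∈ N)
    (F : Finset G) :
    ∃ N : Subgroup G, N ≤ Z ∧ (∀ f ∈ F, f ∈ Z → f ≠ 1 → f ∉ N) ∧
      ∀ w ∈ Z, ∃ k : ℕ, w ^ (p ^ k) ∈ N := by
  classical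
  induction F using Finset.induction_on with
  | empty =>
    refine ⟨Z, le_refl Z, ?_, fun w hw => ⟨0, by simpa using hw⟩⟩
    intro f hf
    exact absurd hf (Finset.notMem_empty f)
  | insert f F hf ih =>
    obtain ⟨N₁, hN₁Z, hN₁F, hN₁p⟩ := ih
    by_cases hfz : f ∈ Z ∧ f ≠ 1
    · obtain ⟨N₂, hN₂Z, hfN₂, hN₂p⟩ := hres f hfz.1 hfz.2
      refine ⟨N₁ ⊓ N₂, inf_le_of_left_le hN₁Z, ?_, ?_⟩
      · intro f' hf' hf'Z hf'1 hmem
        rcases Finset.mem_insert.mp hf' with h | h
        · rw [h] at hmem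
          exact hfN₂ (Subgroup.mem_inf.mp hmem).2
        · exact hN₁F f' h hf'Z hf'1 (Subgroup.mem_inf.mp hmem).1
      · intro w hw
        obtain ⟨k₁, hk₁⟩ := hN₁p w hw
        obtain ⟨k₂, hk₂⟩ := hN₂p w hw
        refine ⟨k₁ + k₂, Subgroup.mem_inf.mpr ⟨?_, ?_⟩⟩
        · rw [pow_add, pow_mul]; exact Subgroup.pow_mem _ hk₁ _
        · rw [pow_add, mul_comm, pow_mul]; exact Subgroup.pow_mem _ hk₂ _
    · refine ⟨N₁, hN₁Z, ?_, hN₁p⟩
      intro f' hf' hf'Z hf'1
      rcases Finset.mem_insert.mp hf' with h | h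
      · rw [h] at hf'Z hf'1
        exact absurd ⟨hf'Z, hf'1⟩ hfz
      · exact hN₁F f' h hf'Z hf'1

/-- There is an admissible `N` such that `G → G ⧸ N` is injective on a given finite set. -/
theorem exists_subgroup_injOn (p : ℕ) (Z : Subgroup G)
    (hres : ∀ z ∈ Z, z ≠ 1 → ∃ N : Subgroup G, N ≤ Z ∧ z ∉ N ∧
      ∀ w ∈ Z, ∃ k : ℕ, w ^ (p ^ k) ∈ N)
    (S : Finset G) :
    ∃ N : Subgroup G, N ≤ Z ∧ (∀ w ∈ Z, ∃ k : ℕ, w ^ (p ^ k) ∈ N) ∧
      ∀ g ∈ S, ∀ g' ∈ S, g⁻¹ * g' ∈ N → g = g' := by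
  classical
  obtain ⟨N, hNZ, hNF, hNp⟩ := exists_subgroup_avoiding p Z hres
    ((S ×ˢ S).image (fun q : G × G => q.1⁻¹ * q.2))
  refine ⟨N, hNZ, hNp, ?_⟩
  intro g hg g' hg' hmem
  by_contra hne
  have hF : g⁻¹ * g' ∈ (S ×ˢ S).image (fun q : G × G => q.1⁻¹ * q.2) :=
    Finset.mem_image.mpr ⟨(g, g'), Finset.mem_product.mpr ⟨hg, hg'⟩, rfl⟩
  have h1 : g⁻¹ * g' ≠ 1 := by
    intro h
    apply hne
    have := inv_mul_eq_one.mp h
    exact this
  exact hNF _ hF (hNZ hmem) h1 hmem

/-- If `G → G ⧸ N` is injective on the support of `x ≠ 0`, the image of `x` is nonzero. -/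
theorem mapDomain_ne_zero_of_injOn (N : Subgroup G) [N.Normal] (x : MonoidAlgebra R G)
    (hx : x ≠ 0)
    (hinj : ∀ g ∈ x.coeff.support, ∀ g' ∈ x.coeff.support, g⁻¹ * g' ∈ N → g = g') :
    MonoidAlgebra.mapDomainRingHom R (QuotientGroup.mk' N) x ≠ 0 := by
  intro h0
  have hsupp : x.coeff.support.Nonempty := by
    rw [Finsupp.support_nonempty_iff]; simpa using hx
  obtain ⟨g₀, hg₀⟩ := hsupp
  have hinj' : Set.InjOn (fun g : G => (QuotientGroup.mk g : G ⧸ N))
      (x.coeff.support : Set G) := by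
    intro g hg g' hg' hgg'
    exact hinj g hg g' hg' (QuotientGroup.eq.mp hgg')
  have h1 : Finsupp.mapDomain (fun g : G => (QuotientGroup.mk g : G ⧸ N)) x.coeff
      (QuotientGroup.mk g₀ : G ⧸ N) = x.coeff g₀ :=
    Finsupp.mapDomain_apply' (x.coeff.support : Set G) x.coeff (le_refl _) hinj' hg₀
  have h2 : (MonoidAlgebra.mapDomainRingHom R (QuotientGroup.mk' N) x).coeff
      = Finsupp.mapDomain (fun g : G => (QuotientGroup.mk g : G ⧸ N)) x.coeff := rfl
  have h3 : x.coeff g₀ = 0 := by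
    rw [← h1, ← h2, h0]; rfl
  exact (Finsupp.mem_support_iff.mp hg₀) h3

/-- An idempotent in the kernel of `R[G] → R[G ⧸ Z]` vanishes, when `Z` is central and
residually `p`-torsion. -/
theorem idem_eq_zero_of_ker (p : ℕ) [Fact p.Prime] [CharP R p] (Z : Subgroup G) [Z.Normal]
    (hcent : ∀ z ∈ Z, ∀ g : G, z * g = g * z)
    (hres : ∀ z ∈ Z, z ≠ 1 → ∃ N : Subgroup G, N ≤ Z ∧ z ∉ N ∧
      ∀ w ∈ Z, ∃ k : ℕ, w ^ (p ^ k) ∈ N)
    (x : MonoidAlgebra R G)
    (hker : MonoidAlgebra.mapDomain (fun g : G => (QuotientGroup.mk g : G ⧸ Z)) x = 0)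
    (hidem : x * x = x) : x = 0 := by
  by_contra hx0
  obtain ⟨N, hNZ, hNp, hinj⟩ := exists_subgroup_injOn p Z hres x.coeff.support
  have hNn : N.Normal := normal_of_central N (fun z hz => hcent z (hNZ hz))
  have hnil := isNilpotent_mapDomain_of_ker p Z N hcent hNp _ hker
  have hidem' : MonoidAlgebra.mapDomainRingHom R (QuotientGroup.mk' N) x
      * MonoidAlgebra.mapDomainRingHom R (QuotientGroup.mk' N) x
      = MonoidAlgebra.mapDomainRingHom R (QuotientGroup.mk' N) x := by
    rw [← map_mul, hidem]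
  have h0 := eq_zero_of_idem_nilpotent _ hidem' hnil
  exact mapDomain_ne_zero_of_injOn N _ hx0 hinj h0

theorem idem_one_sub {S : Type*} [Ring S] (a b : S) (hab : a * b = 1) :
    (1 - b * a) * (1 - b * a) = 1 - b * a := by
  have hb : b * a * (b * a) = b * a := by
    calc b * a * (b * a) = b * (a * b) * a := by noncomm_ring
      _ = b * a := by rw [hab, mul_one]
  calc (1 - b * a) * (1 - b * a) = 1 - b * a - b * a + b * a * (b * a) := by noncomm_ring
    _ = 1 - b * a := by rw [hb]; abel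

/-- The element `1 - b * a` lies in the kernel of `R[G] → R[G ⧸ Z]` when `a * b = 1` and
`R[G ⧸ Z]` is directly finite. -/
theorem one_sub_mem_ker (Z : Subgroup G) [Z.Normal]
    (hQ : ∀ a b : MonoidAlgebra R (G ⧸ Z), a * b = 1 → b * a = 1)
    (a b : MonoidAlgebra R G) (hab : a * b = 1) :
    MonoidAlgebra.mapDomain (fun g : G => (QuotientGroup.mk g : G ⧸ Z)) (1 - b * a) = 0 := by
  have h1 : MonoidAlgebra.mapDomainRingHom R (QuotientGroup.mk' Z) a
      * MonoidAlgebra.mapDomainRingHom R (QuotientGroup.mk' Z) b = 1 := by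
    rw [← map_mul, hab, map_one]
  have h2 := hQ _ _ h1
  have h3 : MonoidAlgebra.mapDomainRingHom R (QuotientGroup.mk' Z) (1 - b * a) = 0 := by
    rw [map_sub, map_one, map_mul, h2, sub_self]
  exact h3

/-- **Central extensions with residually `p`-torsion kernel.** -/
theorem central_residual_up (p : ℕ) [Fact p.Prime] [CharP R p] (Z : Subgroup G) [Z.Normal]
    (hcent : ∀ z ∈ Z, ∀ g : G, z * g = g * z)
    (hres : ∀ z ∈ Z, z ≠ 1 → ∃ N : Subgroup G, N ≤ Z ∧ z ∉ N ∧
      ∀ w ∈ Z, ∃ k : ℕ, w ^ (p ^ k) ∈ N)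
    (hQ : ∀ a b : MonoidAlgebra R (G ⧸ Z), a * b = 1 → b * a = 1) :
    ∀ a b : MonoidAlgebra R G, a * b = 1 → b * a = 1 := by
  intro a b hab
  have h0 := idem_eq_zero_of_ker p Z hcent hres (1 - b * a)
    (one_sub_mem_ker Z hQ a b hab) (idem_one_sub a b hab)
  exact (sub_eq_zero.mp h0).symm

end Residual

section ResidualMatrix

variable {R : Type*} [Ring R] {G : Type*} [Group G]

/-- Matrix form of `isNilpotent_mapDomain_of_ker`. -/
theorem isNilpotent_mapMatrix_of_ker (p : ℕ) [Fact p.Prime] [CharP R p]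
    (Z : Subgroup G) [Z.Normal] (N : Subgroup G) [N.Normal]
    (hcent : ∀ z ∈ Z, ∀ g : G, z * g = g * z)
    (hN : ∀ w ∈ Z, ∃ k : ℕ, w ^ (p ^ k) ∈ N)
    (n : ℕ) (X : Matrix (Fin n) (Fin n) (MonoidAlgebra R G))
    (hX : ∀ i j, MonoidAlgebra.mapDomain (fun g : G => (QuotientGroup.mk g : G ⧸ Z)) (X i j) = 0) :
    IsNilpotent ((MonoidAlgebra.mapDomainRingHom R (QuotientGroup.mk' N)).mapMatrix X) := by
  have key : ∀ (i j : Fin n) (y : MonoidAlgebra R G)
      (W : Matrix (Fin n) (Fin n) (MonoidAlgebra R (G ⧸ N))), IsNilpotent W →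
      IsNilpotent (Matrix.single i j (MonoidAlgebra.mapDomainRingHom R (QuotientGroup.mk' N)
        (y - MonoidAlgebra.mapDomain
          (fun g : G => Quotient.out (QuotientGroup.mk g : G ⧸ Z)) y)) + W) := by
    intro i j y
    induction y using MonoidAlgebra.induction_linear with
    | zero =>
      intro W hW
      rw [MonoidAlgebra.mapDomain_zero, sub_zero, map_zero, Matrix.single_zero, zero_add]
      exact hW
    | add y₁ y₂ h₁ h₂ =>
      intro W hW
      have h := h₁ _ (h₂ W hW)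
      rw [MonoidAlgebra.mapDomain_add]
      have e : y₁ + y₂ - (MonoidAlgebra.mapDomain
            (fun g : G => Quotient.out (QuotientGroup.mk g : G ⧸ Z)) y₁ +
          MonoidAlgebra.mapDomain
            (fun g : G => Quotient.out (QuotientGroup.mk g : G ⧸ Z)) y₂)
          = (y₁ - MonoidAlgebra.mapDomain
            (fun g : G => Quotient.out (QuotientGroup.mk g : G ⧸ Z)) y₁) +
            (y₂ - MonoidAlgebra.mapDomain
            (fun g : G => Quotient.out (QuotientGroup.mk g : G ⧸ Z)) y₂) := by abel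
      rw [e, map_add, Matrix.single_add, add_assoc]; exact h
    | single g r =>
      intro W hW
      rw [MonoidAlgebra.mapDomain_single]
      set s : G := Quotient.out (QuotientGroup.mk g : G ⧸ Z) with hs
      have hmk : (QuotientGroup.mk s : G ⧸ Z) = QuotientGroup.mk g := Quotient.out_eq _
      have hz1 : s⁻¹ * g ∈ Z := QuotientGroup.eq.mp hmk
      have hz : g * s⁻¹ ∈ Z := (Subgroup.Normal.mem_comm_iff inferInstance).mp hz1
      have e : MonoidAlgebra.single g r - MonoidAlgebra.single s r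
          = (MonoidAlgebra.single (g * s⁻¹) (1 : R) - 1) * MonoidAlgebra.single s r := by
        rw [sub_mul, one_mul, MonoidAlgebra.single_mul_single, one_mul, inv_mul_cancel_right]
      rw [e, map_mul, map_sub, map_one, mapDomainRingHom_single, mapDomainRingHom_single,
        single_mul_eq_diagonal_mul]
      obtain ⟨k, hk⟩ := hN _ hz
      have hcentN : ∀ t : G ⧸ N, (QuotientGroup.mk (g * s⁻¹) : G ⧸ N) * t
          = t * (QuotientGroup.mk (g * s⁻¹) : G ⧸ N) := by
        intro t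
        induction t using QuotientGroup.induction_on with
        | H t =>
          rw [← QuotientGroup.mk_mul, ← QuotientGroup.mk_mul, hcent _ hz t]
      have hpowN : (QuotientGroup.mk (g * s⁻¹) : G ⧸ N) ^ (p ^ k) = 1 := by
        rw [← QuotientGroup.mk_pow]
        exact (QuotientGroup.eq_one_iff _).mpr hk
      exact isNilpotent_central_mul_add _ _ W
        (diagonal_central _ (single_sub_one_central _ hcentN))
        (diagonal_nilpotent _ (single_sub_one_nilpotent p _ k hpowN)) hW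
  have hsum : ∀ (s : Finset (Fin n × Fin n))
      (W : Matrix (Fin n) (Fin n) (MonoidAlgebra R (G ⧸ N))), IsNilpotent W →
      IsNilpotent (∑ q ∈ s, Matrix.single q.1 q.2
        (MonoidAlgebra.mapDomainRingHom R (QuotientGroup.mk' N) (X q.1 q.2)) + W) := by
    classical
    intro s
    induction s using Finset.induction_on with
    | empty =>
      intro W hW
      rw [Finset.sum_empty, zero_add]; exact hW
    | insert q s hq ih =>
      intro W hW
      rw [Finset.sum_insert hq, add_assoc]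
      have h := key q.1 q.2 (X q.1 q.2) _ (ih W hW)
      rwa [mapDomain_out_eq_zero Z _ (hX q.1 q.2), sub_zero] at h
  have hX' : (MonoidAlgebra.mapDomainRingHom R (QuotientGroup.mk' N)).mapMatrix X
      = ∑ q : Fin n × Fin n, Matrix.single q.1 q.2
        (MonoidAlgebra.mapDomainRingHom R (QuotientGroup.mk' N) (X q.1 q.2)) := by
    rw [Fintype.sum_prod_type]
    exact Matrix.matrix_eq_sum_single
      ((MonoidAlgebra.mapDomainRingHom R (QuotientGroup.mk' N)).mapMatrix X)
  have h := hsum Finset.univ 0 IsNilpotent.zero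
  rw [add_zero, ← hX'] at h
  exact h

/-- Matrix form of `idem_eq_zero_of_ker`. -/
theorem idem_matrix_eq_zero_of_ker (p : ℕ) [Fact p.Prime] [CharP R p] (Z : Subgroup G)
    [Z.Normal]
    (hcent : ∀ z ∈ Z, ∀ g : G, z * g = g * z)
    (hres : ∀ z ∈ Z, z ≠ 1 → ∃ N : Subgroup G, N ≤ Z ∧ z ∉ N ∧
      ∀ w ∈ Z, ∃ k : ℕ, w ^ (p ^ k) ∈ N)
    (n : ℕ) (X : Matrix (Fin n) (Fin n) (MonoidAlgebra R G))
    (hentries : ∀ i j, MonoidAlgebra.mapDomain (fun g : G => (QuotientGroup.mk g : G ⧸ Z))
      (X i j) = 0)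
    (hidem : X * X = X) : X = 0 := by
  classical
  by_contra hX0
  obtain ⟨N, hNZ, hNp, hinj⟩ := exists_subgroup_injOn p Z hres
    (Finset.univ.biUnion (fun q : Fin n × Fin n => (X q.1 q.2).coeff.support))
  have hNn : N.Normal := normal_of_central N (fun z hz => hcent z (hNZ hz))
  have hnil := isNilpotent_mapMatrix_of_ker p Z N hcent hNp n _ hentries
  have hidem' : (MonoidAlgebra.mapDomainRingHom R (QuotientGroup.mk' N)).mapMatrix X
      * (MonoidAlgebra.mapDomainRingHom R (QuotientGroup.mk' N)).mapMatrix X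
      = (MonoidAlgebra.mapDomainRingHom R (QuotientGroup.mk' N)).mapMatrix X := by
    rw [← map_mul, hidem]
  have h0 := eq_zero_of_idem_nilpotent _ hidem' hnil
  have hex : ∃ i j, X i j ≠ 0 := by
    by_contra hcon
    push Not at hcon
    apply hX0
    apply Matrix.ext
    intro i j
    exact hcon i j
  obtain ⟨i, j, hij⟩ := hex
  have hne := mapDomain_ne_zero_of_injOn N _ hij
    (fun g hg g' hg' h => hinj g
      (Finset.mem_biUnion.mpr ⟨(i, j), Finset.mem_univ _, hg⟩) g'
      (Finset.mem_biUnion.mpr ⟨(i, j), Finset.mem_univ _, hg'⟩) h)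
  apply hne
  have h := congrFun (congrFun h0 i) j
  exact h

/-- The entries of `1 - B * A` lie in the kernel of `R[G] → R[G ⧸ Z]` when `A * B = 1` and
`M_n(R[G ⧸ Z])` is directly finite. -/
theorem one_sub_entries_mem_ker (Z : Subgroup G) [Z.Normal] (n : ℕ)
    (hQ : ∀ A B : Matrix (Fin n) (Fin n) (MonoidAlgebra R (G ⧸ Z)), A * B = 1 → B * A = 1)
    (A B : Matrix (Fin n) (Fin n) (MonoidAlgebra R G)) (hAB : A * B = 1) :
    ∀ i j, MonoidAlgebra.mapDomain (fun g : G => (QuotientGroup.mk g : G ⧸ Z))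
      ((1 - B * A) i j) = 0 := by
  have hker : (MonoidAlgebra.mapDomainRingHom R (QuotientGroup.mk' Z)).mapMatrix (1 - B * A)
      = 0 := by
    have h1 : (MonoidAlgebra.mapDomainRingHom R (QuotientGroup.mk' Z)).mapMatrix A
        * (MonoidAlgebra.mapDomainRingHom R (QuotientGroup.mk' Z)).mapMatrix B = 1 := by
      rw [← map_mul, hAB, map_one]
    have h2 := hQ _ _ h1
    rw [map_sub, map_one, map_mul, h2, sub_self]
  intro i j
  have h := congrFun (congrFun hker i) j
  exact h

/-- **Central extensions with residually `p`-torsion kernel, matrix form.** -/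
theorem central_residual_up_matrix (p : ℕ) [Fact p.Prime] [CharP R p] (Z : Subgroup G)
    [Z.Normal]
    (hcent : ∀ z ∈ Z, ∀ g : G, z * g = g * z)
    (hres : ∀ z ∈ Z, z ≠ 1 → ∃ N : Subgroup G, N ≤ Z ∧ z ∉ N ∧
      ∀ w ∈ Z, ∃ k : ℕ, w ^ (p ^ k) ∈ N)
    (n : ℕ)
    (hQ : ∀ A B : Matrix (Fin n) (Fin n) (MonoidAlgebra R (G ⧸ Z)), A * B = 1 → B * A = 1) :
    ∀ A B : Matrix (Fin n) (Fin n) (MonoidAlgebra R G), A * B = 1 → B * A = 1 := by
  intro A B hAB
  have h0 := idem_matrix_eq_zero_of_ker p Z hcent hres n (1 - B * A)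
    (one_sub_entries_mem_ker Z n hQ A B hAB) (idem_one_sub A B hAB)
  exact (sub_eq_zero.mp h0).symm

end ResidualMatrix

end Vale.Agent.Lib.P194.H86
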