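import Mathlib
import Vale.Agent.Lib.P194.H86.CentralRes

/-!
# Central kernels without elements of finite order prime to `p`

A finitely generated abelian group without elements of finite order prime to `p` is residually
`p`-torsion (Krull's intersection theorem for `ℤ`-modules).  Hence, in characteristic `p`, direct
finiteness passes from `R[G ⧸ Z]` to `R[G]` for every central subgroup `Z` without nontrivial
elements of finite order prime to `p` (in particular for every torsion-free central `Z`).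
-/

namespace Vale.Agent.Lib.P194.H86

section Krull

/-- Krull intersection for finitely generated abelian groups, additive form. -/
theorem krull_add (M : Type*) [AddCommGroup M] [Module.Finite ℤ M] (p : ℕ) (hp : p.Prime) (x : M)
    (hx : ∀ k : ℕ, ∃ y : M, (p ^ k : ℕ) • y = x) :
    ∃ m : ℕ, 0 < m ∧ ¬ p ∣ m ∧ m • x = 0 := by
  have hmem : x ∈ (⨅ i : ℕ, (Ideal.span {(p : ℤ)}) ^ i • ⊤ : Submodule ℤ M) := by
    rw [Submodule.mem_iInf]
    intro k
    obtain ⟨y, hy⟩ := hx k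
    rw [Ideal.span_singleton_pow, Submodule.ideal_span_singleton_smul]
    refine ⟨y, Submodule.mem_top, ?_⟩
    change ((p : ℤ) ^ k) • y = x
    rw [← hy, ← Nat.cast_pow, natCast_zsmul]
  obtain ⟨r, hr⟩ := (Ideal.mem_iInf_smul_pow_eq_bot_iff (Ideal.span {(p : ℤ)}) x).mp hmem
  obtain ⟨t, ht⟩ := Ideal.mem_span_singleton.mp r.2
  have h1 : ((1 : ℤ) - (r : ℤ)) • x = 0 := by
    rw [sub_smul, one_smul, hr, sub_self]
  have hne : (1 : ℤ) - (r : ℤ) ≠ 0 := by
    intro h0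
    have hp1 : (p : ℤ) ∣ 1 := by
      have h : (1 : ℤ) = (r : ℤ) := by linarith
      rw [h]; exact ⟨t, ht⟩
    have h3 : (p : ℤ) ≤ 1 := Int.le_of_dvd one_pos hp1
    have h2 : 2 ≤ p := hp.two_le
    omega
  refine ⟨((1 : ℤ) - (r : ℤ)).natAbs, Int.natAbs_pos.mpr hne, ?_, ?_⟩
  · intro hdiv
    have hdiv' : (p : ℤ) ∣ (1 : ℤ) - (r : ℤ) := Int.natCast_dvd.mpr hdiv
    have hp1 : (p : ℤ) ∣ 1 := by
      have hr' : (p : ℤ) ∣ (r : ℤ) := ⟨t, ht⟩
      have h := dvd_add hdiv' hr'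
      simpa using h
    have h3 : (p : ℤ) ≤ 1 := Int.le_of_dvd one_pos hp1
    have h2 : 2 ≤ p := hp.two_le
    omega
  · rcases Int.natAbs_eq ((1 : ℤ) - (r : ℤ)) with h | h
    · rw [h] at h1
      simpa using h1
    · rw [h] at h1
      simpa using h1

variable {G : Type*} [Group G]

/-- Krull intersection for a finitely generated commutative subgroup, multiplicative form. -/
theorem krull_mul (H : Subgroup G) (hfg : H.FG)
    (hcomm : ∀ a ∈ H, ∀ b ∈ H, a * b = b * a) (p : ℕ) (hp : p.Prime) (z : G) (hz : z ∈ H)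
    (hdiv : ∀ k : ℕ, ∃ w ∈ H, w ^ (p ^ k) = z) : ∃ m : ℕ, 0 < m ∧ ¬ p ∣ m ∧ z ^ m = 1 := by
  let inst : CommGroup H :=
    { (inferInstance : Group H) with
      mul_comm := fun a b => Subtype.ext (hcomm a a.2 b b.2) }
  have hfin : Module.Finite ℤ (Additive H) := by
    rw [Module.Finite.iff_addGroup_fg, ← GroupFG.iff_add_fg, Group.fg_iff_subgroup_fg]
    exact hfg
  obtain ⟨m, hm, hpm, hmx⟩ := krull_add (Additive H) p hp (Additive.ofMul ⟨z, hz⟩)
    (fun k => by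
      obtain ⟨w, hw, hwz⟩ := hdiv k
      refine ⟨Additive.ofMul ⟨w, hw⟩, ?_⟩
      rw [← ofMul_pow]
      congr 1
      exact Subtype.ext hwz)
  refine ⟨m, hm, hpm, ?_⟩
  rw [← ofMul_pow] at hmx
  have h1 : (⟨z, hz⟩ : H) ^ m = 1 := by
    have h := congrArg Additive.toMul hmx
    simpa using h
  have h2 := congrArg Subtype.val h1
  simpa using h2

/-- The subgroup of `m`-th powers of a commutative subgroup. -/
def powSubgroup (H : Subgroup G) (hcomm : ∀ a ∈ H, ∀ b ∈ H, a * b = b * a) (m : ℕ) :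
    Subgroup G where
  carrier := {g | ∃ w ∈ H, w ^ m = g}
  mul_mem' := by
    rintro _ _ ⟨w₁, h₁, rfl⟩ ⟨w₂, h₂, rfl⟩
    exact ⟨w₁ * w₂, H.mul_mem h₁ h₂, Commute.mul_pow (hcomm w₁ h₁ w₂ h₂) m⟩
  one_mem' := ⟨1, H.one_mem, one_pow m⟩
  inv_mem' := by
    rintro _ ⟨w, h, rfl⟩
    exact ⟨w⁻¹, H.inv_mem h, inv_pow w m⟩

/-- A finitely generated commutative subgroup without elements of finite order prime to `p` is
residually `p`-torsion. -/
theorem fg_residual (H : Subgroup G) (hfg : H.FG)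
    (hcomm : ∀ a ∈ H, ∀ b ∈ H, a * b = b * a) (p : ℕ) (hp : p.Prime)
    (htor : ∀ z ∈ H, ∀ m : ℕ, 0 < m → ¬ p ∣ m → z ^ m = 1 → z = 1) :
    ∀ z ∈ H, z ≠ 1 → ∃ N : Subgroup G, N ≤ H ∧ z ∉ N ∧ ∀ w ∈ H, ∃ k : ℕ, w ^ (p ^ k) ∈ N := by
  intro z hz hz1
  by_contra hcon
  push Not at hcon
  apply hz1
  have hdiv : ∀ k : ℕ, ∃ w ∈ H, w ^ (p ^ k) = z := by
    intro k
    by_contra hk
    push Not at hk
    have hle : powSubgroup H hcomm (p ^ k) ≤ H := by
      rintro g ⟨w, hw, rfl⟩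
      exact H.pow_mem hw _
    have hzN : z ∉ powSubgroup H hcomm (p ^ k) := by
      rintro ⟨w, hw, e⟩
      exact hk w hw e
    obtain ⟨w, hw, hwk⟩ := hcon (powSubgroup H hcomm (p ^ k)) hle hzN
    exact hwk k ⟨w, hw, rfl⟩
  obtain ⟨m, hm, hpm, hzm⟩ := krull_mul H hfg hcomm p hp z hz hdiv
  exact htor z hz m hm hpm hzm

end Krull

section NoPrimeToP

variable {R : Type*} [Ring R] {G : Type*} [Group G]

/-- If `x` lies in the kernel of `R[G] → R[G ⧸ Z]` and `Z₁ ≤ Z` contains all ratios of support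
elements of `x` that lie in `Z`, then `x` lies in the kernel of `R[G] → R[G ⧸ Z₁]`. -/
theorem ker_of_ker_le (Z Z₁ : Subgroup G) [Z.Normal] [Z₁.Normal] (hle : Z₁ ≤ Z)
    (x : MonoidAlgebra R G)
    (hx : MonoidAlgebra.mapDomain (fun g : G => (QuotientGroup.mk g : G ⧸ Z)) x = 0)
    (hrat : ∀ g ∈ x.coeff.support, ∀ g' ∈ x.coeff.support, g⁻¹ * g' ∈ Z → g⁻¹ * g' ∈ Z₁) :
    MonoidAlgebra.mapDomain (fun g : G => (QuotientGroup.mk g : G ⧸ Z₁)) x = 0 := by
  classical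
  have hex : ∃ q : G ⧸ Z₁ → G ⧸ Z, ∀ g : G, q (QuotientGroup.mk g) = QuotientGroup.mk g :=
    ⟨QuotientGroup.map Z₁ Z (MonoidHom.id G) (fun g hg => hle hg), fun g => rfl⟩
  obtain ⟨q, hq⟩ := hex
  have hqy : Finsupp.mapDomain q
      (Finsupp.mapDomain (fun g : G => (QuotientGroup.mk g : G ⧸ Z₁)) x.coeff) = 0 := by
    rw [← Finsupp.mapDomain_comp]
    have hcomp : (q ∘ fun g : G => (QuotientGroup.mk g : G ⧸ Z₁))
        = fun g : G => (QuotientGroup.mk g : G ⧸ Z) := by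
      funext g
      exact hq g
    rw [hcomp]
    have h := congrArg MonoidAlgebra.coeff hx
    exact h
  have hinj : Set.InjOn q
      ((Finsupp.mapDomain (fun g : G => (QuotientGroup.mk g : G ⧸ Z₁)) x.coeff).support :
        Set (G ⧸ Z₁)) := by
    intro c hc c' hc' hcc'
    have hsub := Finsupp.mapDomain_support
      (f := fun g : G => (QuotientGroup.mk g : G ⧸ Z₁)) (s := x.coeff)
    obtain ⟨g, hg, rfl⟩ := Finset.mem_image.mp (hsub hc)
    obtain ⟨g', hg', rfl⟩ := Finset.mem_image.mp (hsub hc')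
    rw [hq, hq] at hcc'
    have h1 : g⁻¹ * g' ∈ Z := QuotientGroup.eq.mp hcc'
    exact QuotientGroup.eq.mpr (hrat g hg g' hg' h1)
  have hy0 : Finsupp.mapDomain (fun g : G => (QuotientGroup.mk g : G ⧸ Z₁)) x.coeff = 0 := by
    by_contra hne
    obtain ⟨c, hc⟩ := Finsupp.support_nonempty_iff.mpr hne
    have h1 := Finsupp.mapDomain_apply' _ _ (le_refl _) hinj hc
    rw [hqy] at h1
    exact (Finsupp.mem_support_iff.mp hc) h1.symm
  apply MonoidAlgebra.coeff_injective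
  exact hy0

/-- A finitely generated subgroup of `Z` containing the relevant ratios, which is residually
`p`-torsion. -/
theorem exists_fg_central (p : ℕ) (hp : p.Prime) (Z : Subgroup G)
    (hcent : ∀ z ∈ Z, ∀ g : G, z * g = g * z)
    (htor : ∀ z ∈ Z, ∀ m : ℕ, 0 < m → ¬ p ∣ m → z ^ m = 1 → z = 1)
    (S : Finset G) :
    ∃ Z₁ : Subgroup G, Z₁ ≤ Z ∧
      (∀ g ∈ S, ∀ g' ∈ S, g⁻¹ * g' ∈ Z → g⁻¹ * g' ∈ Z₁) ∧
      (∀ z ∈ Z₁, z ≠ 1 → ∃ N : Subgroup G, N ≤ Z₁ ∧ z ∉ N ∧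
        ∀ w ∈ Z₁, ∃ k : ℕ, w ^ (p ^ k) ∈ N) := by
  classical
  have hle : Subgroup.closure
      ((((S ×ˢ S).image (fun q : G × G => q.1⁻¹ * q.2)).filter (fun f => f ∈ Z) : Finset G) :
        Set G) ≤ Z := by
    rw [Subgroup.closure_le]
    intro f hf
    exact (Finset.mem_filter.mp (Finset.mem_coe.mp hf)).2
  refine ⟨Subgroup.closure
      ((((S ×ˢ S).image (fun q : G × G => q.1⁻¹ * q.2)).filter (fun f => f ∈ Z) : Finset G) :
        Set G), hle, ?_, ?_⟩
  · intro g hg g' hg' h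
    apply Subgroup.subset_closure
    exact Finset.mem_coe.mpr (Finset.mem_filter.mpr
      ⟨Finset.mem_image.mpr ⟨(g, g'), Finset.mem_product.mpr ⟨hg, hg'⟩, rfl⟩, h⟩)
  · exact fg_residual _ ⟨_, rfl⟩ (fun a ha b _ => hcent a (hle ha) b) p hp
      (fun z hz => htor z (hle hz))

/-- **Central kernels without elements of finite order prime to `p`.** -/
theorem central_noPrime_up (p : ℕ) [Fact p.Prime] [CharP R p] (Z : Subgroup G) [Z.Normal]
    (hcent : ∀ z ∈ Z, ∀ g : G, z * g = g * z)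
    (htor : ∀ z ∈ Z, ∀ m : ℕ, 0 < m → ¬ p ∣ m → z ^ m = 1 → z = 1)
    (hQ : ∀ a b : MonoidAlgebra R (G ⧸ Z), a * b = 1 → b * a = 1) :
    ∀ a b : MonoidAlgebra R G, a * b = 1 → b * a = 1 := by
  intro a b hab
  obtain ⟨Z₁, hle, hrat, hres₁⟩ := exists_fg_central p Fact.out Z hcent htor
    (1 - b * a).coeff.support
  have hN₁ : Z₁.Normal := normal_of_central Z₁ (fun z hz => hcent z (hle hz))
  have hker₁ := ker_of_ker_le Z Z₁ hle (1 - b * a) (one_sub_mem_ker Z hQ a b hab) hrat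
  have h0 := idem_eq_zero_of_ker p Z₁ (fun z hz => hcent z (hle hz)) hres₁ (1 - b * a) hker₁
    (idem_one_sub a b hab)
  exact (sub_eq_zero.mp h0).symm

/-- Matrix form of `central_noPrime_up`. -/
theorem central_noPrime_up_matrix (p : ℕ) [Fact p.Prime] [CharP R p] (Z : Subgroup G)
    [Z.Normal]
    (hcent : ∀ z ∈ Z, ∀ g : G, z * g = g * z)
    (htor : ∀ z ∈ Z, ∀ m : ℕ, 0 < m → ¬ p ∣ m → z ^ m = 1 → z = 1)
    (n : ℕ)
    (hQ : ∀ A B : Matrix (Fin n) (Fin n) (MonoidAlgebra R (G ⧸ Z)), A * B = 1 → B * A = 1) :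
    ∀ A B : Matrix (Fin n) (Fin n) (MonoidAlgebra R G), A * B = 1 → B * A = 1 := by
  classical
  intro A B hAB
  obtain ⟨Z₁, hle, hrat, hres₁⟩ := exists_fg_central p Fact.out Z hcent htor
    (Finset.univ.biUnion (fun q : Fin n × Fin n => ((1 - B * A) q.1 q.2).coeff.support))
  have hN₁ : Z₁.Normal := normal_of_central Z₁ (fun z hz => hcent z (hle hz))
  have hentries := one_sub_entries_mem_ker Z n hQ A B hAB
  have hentries₁ : ∀ i j, MonoidAlgebra.mapDomain
      (fun g : G => (QuotientGroup.mk g : G ⧸ Z₁)) ((1 - B * A) i j) = 0 := by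
    intro i j
    apply ker_of_ker_le Z Z₁ hle _ (hentries i j)
    intro g hg g' hg' h
    exact hrat g (Finset.mem_biUnion.mpr ⟨(i, j), Finset.mem_univ _, hg⟩) g'
      (Finset.mem_biUnion.mpr ⟨(i, j), Finset.mem_univ _, hg'⟩) h
  have h0 := idem_matrix_eq_zero_of_ker p Z₁ (fun z hz => hcent z (hle hz)) hres₁ n
    (1 - B * A) hentries₁ (idem_one_sub A B hAB)
  exact (sub_eq_zero.mp h0).symm

end NoPrimeToP

end Vale.Agent.Lib.P194.H86
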