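import Mathlib

/-!
# Direct finiteness for elements of a group algebra with at most two terms of maximal weight

`K` a division ring with a valuation `v`, `G` a group, `ψ : G →* Γ₀`.  The *weight* of the term of
`x : K[G]` at `g` is `v (x.coeff g) * ψ g`.  If `a` has at most two terms of maximal weight, at
`g₁` and `g₂`, and `g₁⁻¹ * g₂` has infinite order (or `g₁ = g₂`), then `a` is not a zero divisor
on either side, hence `a * b = 1 ↔ b * a = 1`.
-/

namespace Vale.Agent.Lib.P194.H86

open Finset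

section Closed

variable {G : Type*} [Group G]

/-- A nonempty finite set closed under left multiplication by `h` forces a positive power of `h`
to be trivial. -/
theorem pow_eq_one_of_mul_left_closed (S : Finset G) (hS : S.Nonempty) (h : G)
    (hcl : ∀ q ∈ S, h * q ∈ S) : ∃ n : ℕ, 0 < n ∧ h ^ n = 1 := by
  obtain ⟨q, hq⟩ := hS
  have hmem : ∀ n : ℕ, h ^ n * q ∈ S := by
    intro n
    induction n with
    | zero => simpa using hq
    | succ n ih =>
      have := hcl _ ih
      rwa [← mul_assoc, ← pow_succ'] at this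
  have hinj : ¬ Function.Injective (fun n : ℕ => (⟨h ^ n * q, hmem n⟩ : S)) :=
    not_injective_infinite_finite _
  rw [Function.Injective] at hinj
  push Not at hinj
  obtain ⟨n, k, heq, hne⟩ := hinj
  have heq' : h ^ n * q = h ^ k * q := by simpa using congrArg Subtype.val heq
  have heq'' : h ^ n = h ^ k := mul_right_cancel heq'
  rcases lt_or_gt_of_ne hne with hlt | hlt
  · refine ⟨k - n, by omega, ?_⟩
    have hk : h ^ k = h ^ (k - n) * h ^ n := by
      rw [← pow_add]; congr 1; omega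
    rw [hk] at heq''
    simpa using heq''
  · refine ⟨n - k, by omega, ?_⟩
    have hk : h ^ n = h ^ (n - k) * h ^ k := by
      rw [← pow_add]; congr 1; omega
    rw [hk] at heq''
    simpa using heq''

/-- Right-handed version of `pow_eq_one_of_mul_left_closed`. -/
theorem pow_eq_one_of_mul_right_closed (S : Finset G) (hS : S.Nonempty) (h : G)
    (hcl : ∀ q ∈ S, q * h ∈ S) : ∃ n : ℕ, 0 < n ∧ h ^ n = 1 := by
  obtain ⟨q, hq⟩ := hS
  have hmem : ∀ n : ℕ, q * h ^ n ∈ S := by
    intro n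
    induction n with
    | zero => simpa using hq
    | succ n ih =>
      have := hcl _ ih
      rwa [mul_assoc, ← pow_succ] at this
  have hinj : ¬ Function.Injective (fun n : ℕ => (⟨q * h ^ n, hmem n⟩ : S)) :=
    not_injective_infinite_finite _
  rw [Function.Injective] at hinj
  push Not at hinj
  obtain ⟨n, k, heq, hne⟩ := hinj
  have heq' : q * h ^ n = q * h ^ k := by simpa using congrArg Subtype.val heq
  have heq'' : h ^ n = h ^ k := mul_left_cancel heq'
  rcases lt_or_gt_of_ne hne with hlt | hlt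
  · refine ⟨k - n, by omega, ?_⟩
    have hk : h ^ k = h ^ (k - n) * h ^ n := by
      rw [← pow_add]; congr 1; omega
    rw [hk] at heq''
    simpa using heq''
  · refine ⟨n - k, by omega, ?_⟩
    have hk : h ^ n = h ^ (n - k) * h ^ k := by
      rw [← pow_add]; congr 1; omega
    rw [hk] at heq''
    simpa using heq''

/-- If a positive power of `x * y` is trivial, so is the same power of `y * x`. -/
theorem pow_mul_comm_eq_one (x y : G) (n : ℕ) (h : (x * y) ^ n = 1) : (y * x) ^ n = 1 := by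
  have e : y * x = x⁻¹ * (x * y) * x⁻¹⁻¹ := by group
  rw [e, conj_pow, h]; group

/-- If a positive power of `x` is trivial, so is the same power of `x⁻¹`. -/
theorem pow_inv_eq_one (x : G) (n : ℕ) (h : x ^ n = 1) : x⁻¹ ^ n = 1 := by
  rw [inv_pow, h, inv_one]

end Closed

section Valuative

variable {K : Type*} [DivisionRing K] {Γ₀ : Type*} [LinearOrderedCommGroupWithZero Γ₀]
variable {A B C : Type*} [DecidableEq A] [DecidableEq B] [DecidableEq C]

/-- Weighted unique-product lemma: if all convolution coefficients vanish, a pair of terms of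
maximal weight never has a product that is unique among pairs of maximal weight. -/
theorem exists_ne_of_sum_eq_zero (v : Valuation K Γ₀) (m : A → B → C)
    (wA : A → Γ₀) (wB : B → Γ₀) (wC : C → Γ₀)
    (hw : ∀ p q, wA p * wB q = wC (m p q)) (hwC : ∀ c, wC c ≠ 0)
    (P : Finset A) (Q : Finset B) (a : A → K) (b : B → K) (f : A → B → K)
    (hf : ∀ p q, v (f p q) = v (a p) * v (b q))
    (hzero : ∀ c, ∑ p ∈ P, ∑ q ∈ Q, (if m p q = c then f p q else 0) = 0)
    (s : A) (hs : s ∈ P) (has : a s ≠ 0) (hsmax : ∀ p ∈ P, v (a p) * wA p ≤ v (a s) * wA s)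
    (t : B) (ht : t ∈ Q) (hbt : b t ≠ 0) (htmax : ∀ q ∈ Q, v (b q) * wB q ≤ v (b t) * wB t) :
    ∃ s' ∈ P, ∃ t' ∈ Q, m s' t' = m s t ∧ (s' ≠ s ∨ t' ≠ t) ∧
      v (a s') * wA s' = v (a s) * wA s ∧ v (b t') * wB t' = v (b t) * wB t := by
  by_contra hcon
  push Not at hcon
  have hz := hzero (m s t)
  rw [← Finset.sum_product' P Q (fun p q => if m p q = m s t then f p q else 0)] at hz
  have hst : (s, t) ∈ P ×ˢ Q := Finset.mem_product.mpr ⟨hs, ht⟩
  rw [← Finset.add_sum_erase _ _ hst] at hz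
  simp only [if_true] at hz
  have hwAs : wA s ≠ 0 := left_ne_zero_of_mul (hw s t ▸ hwC (m s t))
  have hwBt : wB t ≠ 0 := right_ne_zero_of_mul (hw s t ▸ hwC (m s t))
  have hvas : v (a s) ≠ 0 := (Valuation.ne_zero_iff v).mpr has
  have hvbt : v (b t) ≠ 0 := (Valuation.ne_zero_iff v).mpr hbt
  have hpos : v (f s t) ≠ 0 := by rw [hf]; exact mul_ne_zero hvas hvbt
  have hlt : v (∑ x ∈ (P ×ˢ Q).erase (s, t), (if m x.1 x.2 = m s t then f x.1 x.2 else 0))
      < v (f s t) := by
    apply Valuation.map_sum_lt v hpos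
    rintro ⟨p, q⟩ hx
    rw [Finset.mem_erase, Finset.mem_product] at hx
    obtain ⟨hne, hp, hq⟩ := hx
    by_cases hm : m p q = m s t
    · simp only [hm, if_true]
      have hne' : p ≠ s ∨ q ≠ t := by
        by_contra hc
        push Not at hc
        exact hne (by rw [hc.1, hc.2])
      have key : (v (a p) * wA p) * (v (b q) * wB q) < (v (a s) * wA s) * (v (b t) * wB t) := by
        rcases lt_or_eq_of_le (hsmax p hp) with h1 | h1
        · have hpos2 : 0 < v (b t) * wB t := zero_lt_iff.mpr (mul_ne_zero hvbt hwBt)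
          calc (v (a p) * wA p) * (v (b q) * wB q) ≤ (v (a p) * wA p) * (v (b t) * wB t) :=
                mul_le_mul_right (htmax q hq) _
            _ < (v (a s) * wA s) * (v (b t) * wB t) :=
                MulPosStrictMono.mul_lt_mul_of_pos_right hpos2 h1
        · have h2 : v (b q) * wB q < v (b t) * wB t :=
            lt_of_le_of_ne (htmax q hq) (hcon p hp q hq hm hne' h1)
          rw [h1]
          have hpos1 : 0 < v (a s) * wA s := zero_lt_iff.mpr (mul_ne_zero hvas hwAs)
          exact (mul_lt_mul_iff_of_pos_left hpos1).mpr h2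
      have e1 : (v (a p) * wA p) * (v (b q) * wB q) = v (f p q) * wC (m s t) := by
        rw [← hm, ← hw p q, hf]; exact mul_mul_mul_comm _ _ _ _
      have e2 : (v (a s) * wA s) * (v (b t) * wB t) = v (f s t) * wC (m s t) := by
        rw [← hw s t, hf]; exact mul_mul_mul_comm _ _ _ _
      rw [e1, e2] at key
      exact lt_of_mul_lt_mul_right' key
    · simp only [hm, if_false, map_zero]
      exact zero_lt_iff.mpr hpos
  have : f s t = - ∑ x ∈ (P ×ˢ Q).erase (s, t),
      (if m x.1 x.2 = m s t then f x.1 x.2 else 0) := eq_neg_of_add_eq_zero_left hz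
  rw [this, Valuation.map_neg] at hlt
  exact lt_irrefl _ hlt

end Valuative

section Group

variable {G : Type*} [Group G] {K : Type*} [DivisionRing K]
variable {Γ₀ : Type*} [LinearOrderedCommGroupWithZero Γ₀]

theorem coeff_mul_sum [DecidableEq G] (α β : MonoidAlgebra K G) (c : G) :
    (α * β).coeff c = ∑ p ∈ α.coeff.support, ∑ q ∈ β.coeff.support,
      (if p * q = c then α.coeff p * β.coeff q else 0) := by
  rw [MonoidAlgebra.coeff_mul]
  rfl

theorem coeff_mul_sum' [DecidableEq G] (β α : MonoidAlgebra K G) (c : G) :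
    (β * α).coeff c = ∑ p ∈ α.coeff.support, ∑ q ∈ β.coeff.support,
      (if q * p = c then β.coeff q * α.coeff p else 0) := by
  rw [coeff_mul_sum, Finset.sum_comm]

theorem support_nonempty_of_ne_zero (α : MonoidAlgebra K G) (hα : α ≠ 0) :
    α.coeff.support.Nonempty := by
  rw [Finsupp.support_nonempty_iff]; simpa using hα

theorem psi_ne_zero' (ψ : G →* Γ₀) (c : G) : ψ c ≠ 0 := by
  intro h0
  have h1 : ψ c * ψ c⁻¹ = 1 := by rw [← map_mul, mul_inv_cancel, map_one]
  rw [h0, zero_mul] at h1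
  exact zero_ne_one h1

open Classical in
/-- If `α * β = 0` with `α, β ≠ 0` and all terms of `α` outside `{g₁, g₂}` have weight smaller
than the weight at `g₁`, then `g₁ ≠ g₂` and a positive power of `g₁⁻¹ * g₂` is trivial. -/
theorem left_zero_divisor_top (v : Valuation K Γ₀) (ψ : G →* Γ₀) (α β : MonoidAlgebra K G)
    (hα : α ≠ 0) (hβ : β ≠ 0) (h : α * β = 0) (g₁ g₂ : G)
    (hdom : ∀ g : G, g ≠ g₁ → g ≠ g₂ → v (α.coeff g) * ψ g < v (α.coeff g₁) * ψ g₁) :
    g₁ ≠ g₂ ∧ ∃ n : ℕ, 0 < n ∧ (g₁⁻¹ * g₂) ^ n = 1 := by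
  set T := β.coeff.support.filter (fun g => ∀ g' ∈ β.coeff.support,
      v (β.coeff g') * ψ g' ≤ v (β.coeff g) * ψ g) with hTdef
  have hαs := support_nonempty_of_ne_zero α hα
  have hβs := support_nonempty_of_ne_zero β hβ
  obtain ⟨s1, hs1, hs1max⟩ := Finset.exists_max_image α.coeff.support
    (fun g => v (α.coeff g) * ψ g) hαs
  obtain ⟨t0, ht0, ht0max⟩ := Finset.exists_max_image β.coeff.support
    (fun g => v (β.coeff g) * ψ g) hβs
  have hzero : ∀ c, ∑ p ∈ α.coeff.support, ∑ q ∈ β.coeff.support,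
      (if p * q = c then α.coeff p * β.coeff q else 0) = 0 := by
    intro c
    rw [← coeff_mul_sum, h]; simp
  have hg1le : v (α.coeff g₁) * ψ g₁ ≤ v (α.coeff s1) * ψ s1 := by
    by_cases hg : g₁ ∈ α.coeff.support
    · exact hs1max g₁ hg
    · rw [Finsupp.notMem_support_iff] at hg
      rw [hg, map_zero, zero_mul]; exact zero_le
  have hmem : ∀ s, v (α.coeff s) * ψ s = v (α.coeff s1) * ψ s1 → s = g₁ ∨ s = g₂ := by
    intro s hs
    by_contra hcon
    push Not at hcon
    have := hdom s hcon.1 hcon.2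
    rw [hs] at this
    exact absurd (lt_of_lt_of_le this hg1le) (lt_irrefl _)
  have key : ∀ t ∈ T, ∃ s', s' ≠ s1 ∧ v (α.coeff s') * ψ s' = v (α.coeff s1) * ψ s1 ∧
      s'⁻¹ * s1 * t ∈ T := by
    intro t ht
    rw [hTdef, Finset.mem_filter] at ht
    obtain ⟨s', hs', t', ht', hm, hne, hWs, hWt⟩ :=
      exists_ne_of_sum_eq_zero v (fun p q : G => p * q)
      ψ ψ ψ (fun p q => (map_mul ψ p q).symm) (psi_ne_zero' ψ) α.coeff.support β.coeff.support
      α.coeff β.coeff (fun p q => α.coeff p * β.coeff q) (fun p q => map_mul v _ _) hzero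
      s1 hs1 (Finsupp.mem_support_iff.mp hs1) hs1max
      t ht.1 (Finsupp.mem_support_iff.mp ht.1) ht.2
    have hm' : s' * t' = s1 * t := hm
    have hne1 : s' ≠ s1 := by
      intro heq
      rcases hne with h1 | h1
      · exact h1 heq
      · apply h1
        rw [heq] at hm'
        exact mul_left_cancel hm'
    refine ⟨s', hne1, hWs, ?_⟩
    have ht'eq : s'⁻¹ * s1 * t = t' := by
      rw [mul_assoc, ← hm']; simp
    rw [ht'eq, hTdef, Finset.mem_filter]
    refine ⟨ht', fun g' hg' => ?_⟩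
    rw [hWt]; exact ht.2 g' hg'
  have ht0T : t0 ∈ T := by
    rw [hTdef, Finset.mem_filter]; exact ⟨ht0, ht0max⟩
  have hs1mem := hmem s1 rfl
  obtain ⟨s2, hs2ne, hs2W, -⟩ := key t0 ht0T
  have hs2mem := hmem s2 hs2W
  have hcl : ∀ t ∈ T, (s2⁻¹ * s1) * t ∈ T := by
    intro t ht
    obtain ⟨s', hs'ne, hs'W, hmemT⟩ := key t ht
    have hs'mem := hmem s' hs'W
    have : s' = s2 := by
      rcases hs1mem with e1 | e1 <;> rcases hs2mem with e2 | e2 <;> rcases hs'mem with e3 | e3
      · exact absurd (e3.trans e1.symm) hs'ne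
      · exact absurd (e2.trans e1.symm) hs2ne
      · exact absurd (e3.trans e1.symm) hs'ne
      · exact e3.trans e2.symm
      · exact e3.trans e2.symm
      · exact absurd (e3.trans e1.symm) hs'ne
      · exact absurd (e2.trans e1.symm) hs2ne
      · exact absurd (e3.trans e1.symm) hs'ne
    rwa [this] at hmemT
  obtain ⟨n, hn, hpow⟩ := pow_eq_one_of_mul_left_closed T ⟨t0, ht0T⟩ (s2⁻¹ * s1) hcl
  rcases hs1mem with e1 | e1 <;> rcases hs2mem with e2 | e2
  · exact absurd (e2.trans e1.symm) hs2ne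
  · refine ⟨fun e => hs2ne (by rw [e2, e1, e]), n, hn, ?_⟩
    rw [e1, e2] at hpow
    have := pow_inv_eq_one _ n hpow
    rwa [mul_inv_rev, inv_inv] at this
  · refine ⟨fun e => hs2ne (by rw [e2, e1, e]), n, hn, ?_⟩
    rw [e1, e2] at hpow
    exact hpow
  · exact absurd (e2.trans e1.symm) hs2ne

open Classical in
/-- If `β * α = 0` with `α, β ≠ 0` and all terms of `α` outside `{g₁, g₂}` have weight smaller
than the weight at `g₁`, then `g₁ ≠ g₂` and a positive power of `g₁⁻¹ * g₂` is trivial. -/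
theorem right_zero_divisor_top (v : Valuation K Γ₀) (ψ : G →* Γ₀) (α β : MonoidAlgebra K G)
    (hα : α ≠ 0) (hβ : β ≠ 0) (h : β * α = 0) (g₁ g₂ : G)
    (hdom : ∀ g : G, g ≠ g₁ → g ≠ g₂ → v (α.coeff g) * ψ g < v (α.coeff g₁) * ψ g₁) :
    g₁ ≠ g₂ ∧ ∃ n : ℕ, 0 < n ∧ (g₁⁻¹ * g₂) ^ n = 1 := by
  set T := β.coeff.support.filter (fun g => ∀ g' ∈ β.coeff.support,
      v (β.coeff g') * ψ g' ≤ v (β.coeff g) * ψ g) with hTdef
  have hαs := support_nonempty_of_ne_zero α hα
  have hβs := support_nonempty_of_ne_zero β hβ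
  obtain ⟨s1, hs1, hs1max⟩ := Finset.exists_max_image α.coeff.support
    (fun g => v (α.coeff g) * ψ g) hαs
  obtain ⟨t0, ht0, ht0max⟩ := Finset.exists_max_image β.coeff.support
    (fun g => v (β.coeff g) * ψ g) hβs
  have hzero : ∀ c, ∑ p ∈ α.coeff.support, ∑ q ∈ β.coeff.support,
      (if q * p = c then β.coeff q * α.coeff p else 0) = 0 := by
    intro c
    rw [← coeff_mul_sum', h]; simp
  have hg1le : v (α.coeff g₁) * ψ g₁ ≤ v (α.coeff s1) * ψ s1 := by
    by_cases hg : g₁ ∈ α.coeff.support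
    · exact hs1max g₁ hg
    · rw [Finsupp.notMem_support_iff] at hg
      rw [hg, map_zero, zero_mul]; exact zero_le
  have hmem : ∀ s, v (α.coeff s) * ψ s = v (α.coeff s1) * ψ s1 → s = g₁ ∨ s = g₂ := by
    intro s hs
    by_contra hcon
    push Not at hcon
    have := hdom s hcon.1 hcon.2
    rw [hs] at this
    exact absurd (lt_of_lt_of_le this hg1le) (lt_irrefl _)
  have key : ∀ t ∈ T, ∃ s', s' ≠ s1 ∧ v (α.coeff s') * ψ s' = v (α.coeff s1) * ψ s1 ∧
      t * s1 * s'⁻¹ ∈ T := by
    intro t ht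
    rw [hTdef, Finset.mem_filter] at ht
    obtain ⟨s', hs', t', ht', hm, hne, hWs, hWt⟩ :=
      exists_ne_of_sum_eq_zero v (fun p q : G => q * p)
      ψ ψ ψ (fun p q => by rw [map_mul, mul_comm]) (psi_ne_zero' ψ)
      α.coeff.support β.coeff.support
      α.coeff β.coeff (fun p q => β.coeff q * α.coeff p)
      (fun p q => by rw [map_mul, mul_comm]) hzero
      s1 hs1 (Finsupp.mem_support_iff.mp hs1) hs1max
      t ht.1 (Finsupp.mem_support_iff.mp ht.1) ht.2
    have hm' : t' * s' = t * s1 := hm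
    have hne1 : s' ≠ s1 := by
      intro heq
      rcases hne with h1 | h1
      · exact h1 heq
      · apply h1
        rw [heq] at hm'
        exact mul_right_cancel hm'
    refine ⟨s', hne1, hWs, ?_⟩
    have ht'eq : t * s1 * s'⁻¹ = t' := by
      rw [← hm']; simp
    rw [ht'eq, hTdef, Finset.mem_filter]
    refine ⟨ht', fun g' hg' => ?_⟩
    rw [hWt]; exact ht.2 g' hg'
  have ht0T : t0 ∈ T := by
    rw [hTdef, Finset.mem_filter]; exact ⟨ht0, ht0max⟩
  have hs1mem := hmem s1 rfl
  obtain ⟨s2, hs2ne, hs2W, -⟩ := key t0 ht0T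
  have hs2mem := hmem s2 hs2W
  have hcl : ∀ t ∈ T, t * (s1 * s2⁻¹) ∈ T := by
    intro t ht
    obtain ⟨s', hs'ne, hs'W, hmemT⟩ := key t ht
    have hs'mem := hmem s' hs'W
    have : s' = s2 := by
      rcases hs1mem with e1 | e1 <;> rcases hs2mem with e2 | e2 <;> rcases hs'mem with e3 | e3
      · exact absurd (e3.trans e1.symm) hs'ne
      · exact absurd (e2.trans e1.symm) hs2ne
      · exact absurd (e3.trans e1.symm) hs'ne
      · exact e3.trans e2.symm
      · exact e3.trans e2.symm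
      · exact absurd (e3.trans e1.symm) hs'ne
      · exact absurd (e2.trans e1.symm) hs2ne
      · exact absurd (e3.trans e1.symm) hs'ne
    rw [this, mul_assoc] at hmemT
    exact hmemT
  obtain ⟨n, hn, hpow⟩ := pow_eq_one_of_mul_right_closed T ⟨t0, ht0T⟩ (s1 * s2⁻¹) hcl
  rcases hs1mem with e1 | e1 <;> rcases hs2mem with e2 | e2
  · exact absurd (e2.trans e1.symm) hs2ne
  · refine ⟨fun e => hs2ne (by rw [e2, e1, e]), n, hn, ?_⟩
    rw [e1, e2] at hpow
    -- (g₁ * g₂⁻¹) ^ n = 1
    have h1 := pow_mul_comm_eq_one g₁ g₂⁻¹ n hpow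
    have h2 := pow_inv_eq_one _ n h1
    rwa [mul_inv_rev, inv_inv] at h2
  · refine ⟨fun e => hs2ne (by rw [e2, e1, e]), n, hn, ?_⟩
    rw [e1, e2] at hpow
    -- (g₂ * g₁⁻¹) ^ n = 1
    exact pow_mul_comm_eq_one g₂ g₁⁻¹ n hpow
  · exact absurd (e2.trans e1.symm) hs2ne

/-- **Two-top-terms criterion.** If all terms of `a` outside `{g₁, g₂}` have weight strictly
smaller than the weight at `g₁`, and `g₁ = g₂` or `g₁⁻¹ * g₂` has infinite order, then one-sided
inverses of `a` are two-sided. -/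
theorem two_top_terms (v : Valuation K Γ₀) (ψ : G →* Γ₀) (a b : MonoidAlgebra K G) (g₁ g₂ : G)
    (hdom : ∀ g : G, g ≠ g₁ → g ≠ g₂ → v (a.coeff g) * ψ g < v (a.coeff g₁) * ψ g₁)
    (hord : g₁ = g₂ ∨ ∀ n : ℕ, 0 < n → (g₁⁻¹ * g₂) ^ n ≠ 1) :
    (a * b = 1 → b * a = 1) ∧ (b * a = 1 → a * b = 1) := by
  have hcontra : ¬ (g₁ ≠ g₂ ∧ ∃ n : ℕ, 0 < n ∧ (g₁⁻¹ * g₂) ^ n = 1) := by
    rintro ⟨hne, n, hn, hpow⟩
    rcases hord with h | h
    · exact hne h
    · exact h n hn hpow
  constructor
  · intro hab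
    by_contra hba
    have ha : a ≠ 0 := by
      intro h0; rw [h0, zero_mul] at hab; exact zero_ne_one hab
    have hβ : b * a - 1 ≠ 0 := sub_ne_zero.mpr hba
    have hz : a * (b * a - 1) = 0 := by
      calc a * (b * a - 1) = (a * b) * a - a := by noncomm_ring
        _ = 0 := by rw [hab, one_mul, sub_self]
    exact hcontra (left_zero_divisor_top v ψ a (b * a - 1) ha hβ hz g₁ g₂ hdom)
  · intro hba
    by_contra hab
    have ha : a ≠ 0 := by
      intro h0; rw [h0, mul_zero] at hba; exact zero_ne_one hba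
    have hβ : a * b - 1 ≠ 0 := sub_ne_zero.mpr hab
    have hz : (a * b - 1) * a = 0 := by
      calc (a * b - 1) * a = a * (b * a) - a := by noncomm_ring
        _ = 0 := by rw [hba, mul_one, sub_self]
    exact hcontra (right_zero_divisor_top v ψ a (a * b - 1) ha hβ hz g₁ g₂ hdom)

end Group

end Vale.Agent.Lib.P194.H86
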