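import Mathlib
import Vale.Agent.Lib.P194.H86.TwoTop

/-!
# Direct finiteness for elements of a group ring with at most two terms of greatest height

`R` any ring, `G` a group, `φ : G → ℝ` additive.  If `a` has a term at `g₁` with unit coefficient,
every other term except possibly the one at `g₂` has height `φ` strictly below `φ g₁`,
`φ g₂ ≤ φ g₁`, and `g₁ = g₂` or `g₁⁻¹ * g₂` has infinite order, then `a` is not a zero divisor
on either side, hence `a * b = 1 ↔ b * a = 1`.
-/

namespace Vale.Agent.Lib.P194.H86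

open Finset

section Height

variable {R : Type*} [Ring R] {G : Type*} [Group G]

theorem coeff_mul_sum_ring [DecidableEq G] (α β : MonoidAlgebra R G) (c : G) :
    (α * β).coeff c = ∑ p ∈ α.coeff.support, ∑ q ∈ β.coeff.support,
      (if p * q = c then α.coeff p * β.coeff q else 0) := by
  rw [MonoidAlgebra.coeff_mul]
  rfl

open Classical in
theorem left_zero_divisor_top_height (φ : G → ℝ) (hφ : ∀ g h, φ (g * h) = φ g + φ h)
    (α β : MonoidAlgebra R G) (hβ : β ≠ 0) (h : α * β = 0) (g₁ g₂ : G)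
    (hunit : IsUnit (α.coeff g₁))
    (hdom : ∀ g : G, g ≠ g₁ → g ≠ g₂ → α.coeff g ≠ 0 → φ g < φ g₁)
    (hg2 : φ g₂ ≤ φ g₁) :
    g₁ ≠ g₂ ∧ ∃ n : ℕ, 0 < n ∧ (g₁⁻¹ * g₂) ^ n = 1 := by
  set T := β.coeff.support.filter (fun g => ∀ g' ∈ β.coeff.support, φ g' ≤ φ g) with hTdef
  have hβs : β.coeff.support.Nonempty := by
    rw [Finsupp.support_nonempty_iff]; simpa using hβ
  obtain ⟨t0, ht0, ht0max⟩ := Finset.exists_max_image β.coeff.support φ hβs
  have ht0T : t0 ∈ T := by
    rw [hTdef, Finset.mem_filter]; exact ⟨ht0, ht0max⟩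
  have key : ∀ t ∈ T, g₁ ≠ g₂ ∧ (g₂⁻¹ * g₁) * t ∈ T := by
    intro t ht
    rw [hTdef, Finset.mem_filter] at ht
    obtain ⟨htsupp, htmax⟩ := ht
    have hbt : β.coeff t ≠ 0 := Finsupp.mem_support_iff.mp htsupp
    have hz : ∑ p ∈ α.coeff.support, ∑ q ∈ β.coeff.support,
        (if p * q = g₁ * t then α.coeff p * β.coeff q else 0) = 0 := by
      rw [← coeff_mul_sum_ring, h]; simp
    have hne0 : α.coeff g₁ * β.coeff t ≠ 0 := by
      intro h0
      exact hbt (hunit.mul_right_eq_zero.mp h0)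
    have hg1supp : g₁ ∈ α.coeff.support := by
      rw [Finsupp.mem_support_iff]
      intro h0; rw [h0, zero_mul] at hne0; exact hne0 rfl
    have hex : ∃ p ∈ α.coeff.support, ∃ q ∈ β.coeff.support,
        (p ≠ g₁ ∨ q ≠ t) ∧ p * q = g₁ * t := by
      by_contra hcon
      push Not at hcon
      apply hne0
      have h1 : ∀ p ∈ α.coeff.support, p ≠ g₁ → ∑ q ∈ β.coeff.support,
          (if p * q = g₁ * t then α.coeff p * β.coeff q else 0) = 0 := by
        intro p hp hpg
        apply Finset.sum_eq_zero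
        intro q hq
        rw [if_neg]
        exact hcon p hp q hq (Or.inl hpg)
      have h2 : ∀ q ∈ β.coeff.support, q ≠ t →
          (if g₁ * q = g₁ * t then α.coeff g₁ * β.coeff q else 0) = 0 := by
        intro q hq hqt
        rw [if_neg]
        intro hpq
        exact hqt (mul_left_cancel hpq)
      rw [Finset.sum_eq_single_of_mem g₁ hg1supp h1,
        Finset.sum_eq_single_of_mem t htsupp h2, if_pos rfl] at hz
      exact hz
    obtain ⟨p, hp, q, hq, hne, hpq⟩ := hex
    have hpne : p ≠ g₁ := by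
      intro heq
      rcases hne with h1 | h1
      · exact h1 heq
      · apply h1; rw [heq] at hpq; exact mul_left_cancel hpq
    have hsum : φ p + φ q = φ g₁ + φ t := by rw [← hφ, ← hφ, hpq]
    have hqle : φ q ≤ φ t := htmax q hq
    have hp2 : p = g₂ := by
      by_contra hp2
      have := hdom p hpne hp2 (Finsupp.mem_support_iff.mp hp)
      linarith
    have hqeq : φ q = φ t := by
      rw [hp2] at hsum; linarith
    refine ⟨fun e => hpne (by rw [hp2, e]), ?_⟩
    have hq' : g₂⁻¹ * g₁ * t = q := by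
      rw [mul_assoc, ← hpq, hp2]; simp
    rw [hq', hTdef, Finset.mem_filter]
    exact ⟨hq, fun g' hg' => by rw [hqeq]; exact htmax g' hg'⟩
  have hne := (key t0 ht0T).1
  obtain ⟨n, hn, hpow⟩ := pow_eq_one_of_mul_left_closed T ⟨t0, ht0T⟩ (g₂⁻¹ * g₁)
    (fun q hq => (key q hq).2)
  refine ⟨hne, n, hn, ?_⟩
  have := pow_inv_eq_one _ n hpow
  rwa [mul_inv_rev, inv_inv] at this

open Classical in
theorem right_zero_divisor_top_height (φ : G → ℝ) (hφ : ∀ g h, φ (g * h) = φ g + φ h)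
    (α β : MonoidAlgebra R G) (hβ : β ≠ 0) (h : β * α = 0) (g₁ g₂ : G)
    (hunit : IsUnit (α.coeff g₁))
    (hdom : ∀ g : G, g ≠ g₁ → g ≠ g₂ → α.coeff g ≠ 0 → φ g < φ g₁)
    (hg2 : φ g₂ ≤ φ g₁) :
    g₁ ≠ g₂ ∧ ∃ n : ℕ, 0 < n ∧ (g₁⁻¹ * g₂) ^ n = 1 := by
  set T := β.coeff.support.filter (fun g => ∀ g' ∈ β.coeff.support, φ g' ≤ φ g) with hTdef
  have hβs : β.coeff.support.Nonempty := by
    rw [Finsupp.support_nonempty_iff]; simpa using hβ
  obtain ⟨t0, ht0, ht0max⟩ := Finset.exists_max_image β.coeff.support φ hβs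
  have ht0T : t0 ∈ T := by
    rw [hTdef, Finset.mem_filter]; exact ⟨ht0, ht0max⟩
  have key : ∀ t ∈ T, g₁ ≠ g₂ ∧ t * (g₁ * g₂⁻¹) ∈ T := by
    intro t ht
    rw [hTdef, Finset.mem_filter] at ht
    obtain ⟨htsupp, htmax⟩ := ht
    have hbt : β.coeff t ≠ 0 := Finsupp.mem_support_iff.mp htsupp
    have hz : ∑ q ∈ β.coeff.support, ∑ p ∈ α.coeff.support,
        (if q * p = t * g₁ then β.coeff q * α.coeff p else 0) = 0 := by
      rw [← coeff_mul_sum_ring, h]; simp
    have hne0 : β.coeff t * α.coeff g₁ ≠ 0 := by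
      intro h0
      exact hbt (hunit.mul_left_eq_zero.mp h0)
    have hg1supp : g₁ ∈ α.coeff.support := by
      rw [Finsupp.mem_support_iff]
      intro h0; rw [h0, mul_zero] at hne0; exact hne0 rfl
    have hex : ∃ q ∈ β.coeff.support, ∃ p ∈ α.coeff.support,
        (q ≠ t ∨ p ≠ g₁) ∧ q * p = t * g₁ := by
      by_contra hcon
      push Not at hcon
      apply hne0
      have h1 : ∀ q ∈ β.coeff.support, q ≠ t → ∑ p ∈ α.coeff.support,
          (if q * p = t * g₁ then β.coeff q * α.coeff p else 0) = 0 := by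
        intro q hq hqt
        apply Finset.sum_eq_zero
        intro p hp
        rw [if_neg]
        exact hcon q hq p hp (Or.inl hqt)
      have h2 : ∀ p ∈ α.coeff.support, p ≠ g₁ →
          (if t * p = t * g₁ then β.coeff t * α.coeff p else 0) = 0 := by
        intro p hp hpg
        rw [if_neg]
        intro hpq
        exact hpg (mul_left_cancel hpq)
      rw [Finset.sum_eq_single_of_mem t htsupp h1,
        Finset.sum_eq_single_of_mem g₁ hg1supp h2, if_pos rfl] at hz
      exact hz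
    obtain ⟨q, hq, p, hp, hne, hqp⟩ := hex
    have hpne : p ≠ g₁ := by
      intro heq
      rcases hne with h1 | h1
      · apply h1; rw [heq] at hqp; exact mul_right_cancel hqp
      · exact h1 heq
    have hsum : φ q + φ p = φ t + φ g₁ := by rw [← hφ, ← hφ, hqp]
    have hqle : φ q ≤ φ t := htmax q hq
    have hp2 : p = g₂ := by
      by_contra hp2
      have := hdom p hpne hp2 (Finsupp.mem_support_iff.mp hp)
      linarith
    have hqeq : φ q = φ t := by
      rw [hp2] at hsum; linarith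
    refine ⟨fun e => hpne (by rw [hp2, e]), ?_⟩
    have hq' : t * (g₁ * g₂⁻¹) = q := by
      rw [← mul_assoc, ← hqp, hp2]; simp
    rw [hq', hTdef, Finset.mem_filter]
    exact ⟨hq, fun g' hg' => by rw [hqeq]; exact htmax g' hg'⟩
  have hne := (key t0 ht0T).1
  obtain ⟨n, hn, hpow⟩ := pow_eq_one_of_mul_right_closed T ⟨t0, ht0T⟩ (g₁ * g₂⁻¹)
    (fun q hq => (key q hq).2)
  refine ⟨hne, n, hn, ?_⟩
  have h1 := pow_mul_comm_eq_one g₁ g₂⁻¹ n hpow
  have h2 := pow_inv_eq_one _ n h1
  rwa [mul_inv_rev, inv_inv] at h2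

/-- **Two-top-terms criterion over an arbitrary coefficient ring.** -/
theorem two_top_terms_height (φ : G → ℝ) (hφ : ∀ g h, φ (g * h) = φ g + φ h)
    (a b : MonoidAlgebra R G) (g₁ g₂ : G) (hunit : IsUnit (a.coeff g₁))
    (hdom : ∀ g : G, g ≠ g₁ → g ≠ g₂ → a.coeff g ≠ 0 → φ g < φ g₁)
    (hg2 : φ g₂ ≤ φ g₁)
    (hord : g₁ = g₂ ∨ ∀ n : ℕ, 0 < n → (g₁⁻¹ * g₂) ^ n ≠ 1) :
    (a * b = 1 → b * a = 1) ∧ (b * a = 1 → a * b = 1) := by
  have hcontra : ¬ (g₁ ≠ g₂ ∧ ∃ n : ℕ, 0 < n ∧ (g₁⁻¹ * g₂) ^ n = 1) := by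
    rintro ⟨hne, n, hn, hpow⟩
    rcases hord with h | h
    · exact hne h
    · exact h n hn hpow
  constructor
  · intro hab
    by_contra hba
    have hβ : b * a - 1 ≠ 0 := sub_ne_zero.mpr hba
    have hz : a * (b * a - 1) = 0 := by
      calc a * (b * a - 1) = (a * b) * a - a := by noncomm_ring
        _ = 0 := by rw [hab, one_mul, sub_self]
    exact hcontra (left_zero_divisor_top_height φ hφ a (b * a - 1) hβ hz g₁ g₂ hunit hdom hg2)
  · intro hba
    by_contra hab
    have hβ : a * b - 1 ≠ 0 := sub_ne_zero.mpr hab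
    have hz : (a * b - 1) * a = 0 := by
      calc (a * b - 1) * a = a * (b * a) - a := by noncomm_ring
        _ = 0 := by rw [hba, mul_one, sub_self]
    exact hcontra (right_zero_divisor_top_height φ hφ a (a * b - 1) hβ hz g₁ g₂ hunit hdom hg2)

end Height

end Vale.Agent.Lib.P194.H86
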